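import Vale.Agent.P168.Core.Lim

/-! Monomials in multi-overlaps are good: finite differences of gadget kernels in the tilt. -/

open MeasureTheory Filter
open scoped BigOperators Topology

noncomputable section

namespace Vale.Agent.P168.Core

lemma abs_gadgetValue_le (Γ : Gadget) (s : Bool) {m : ℕ} (a : Fin m → Fin Γ.1) (l l' : ℕ)
    (g : Fin m → ℕ) (ω : Arr) : |gadgetValue Γ s a l l' g ω| ≤ 1 := by
  have h : ∀ u v : Bool,
      |(Γ.2.1.map fun e => rset (edgeReps e a l l' u v g) ω).prod| ≤ 1 := fun u v =>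
    abs_list_prod_le _ _ fun e _ => abs_rset_le _ _
  simp only [gadgetValue, Fintype.sum_bool]
  have h1 := abs_le.1 (h true true)
  have h2 := abs_le.1 (h true false)
  have h3 := abs_le.1 (h false true)
  have h4 := abs_le.1 (h false false)
  rw [abs_le]
  cases s <;> simp only [spin, Bool.false_eq_true, if_false, if_true] <;> constructor <;> linarith

lemma measurable_gadgetValue (Γ : Gadget) (s : Bool) {m : ℕ} (a : Fin m → Fin Γ.1) (l l' : ℕ)
    (g : Fin m → ℕ) : Measurable (gadgetValue Γ s a l l' g) := by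
  unfold gadgetValue
  exact (Finset.measurable_sum _ fun u _ => Finset.measurable_sum _ fun v _ =>
    (measurable_list_prod _ (fun e ω => rset (edgeReps e a l l' u v g) ω)
      fun e => measurable_rset _).const_mul _).const_mul _

/-- A family of replica functions as a family indexed by lists. -/
def toL {m : ℕ} (h : (Fin m → ℕ) → Arr → ℝ) : List ℕ → Arr → ℝ :=
  fun l => h fun i => l.getD i 0

lemma ins_eq_toL {m n : ℕ} (h : (Fin m → ℕ) → Arr → ℝ) (ω : Arr) :
    ins m n (fun g => h g ω) = op m n fun l => toL h l ω := by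
  rw [← ins_eq_op]
  congr 1
  funext g
  simp only [toL]
  congr 1
  funext i
  rw [List.getD_eq_getElem _ _ (by simp), List.getElem_ofFn]

/-- The gadget identity for test functions. -/
lemma gadget_test {ν : Measure Arr} (hν : IsGadgetArray ν) (Γ : Gadget) (s : Bool) {n l l' : ℕ}
    (hl : l < n) (hl' : l' < n) {F : Arr → ℝ} (hF : TestFn ν n F) :
    HasSum (fun m : ℕ => ((m.factorial : ℝ))⁻¹ * ∑ a : Fin m → Fin Γ.1, (∏ i, Γ.tilt (a i)) *
        ∫ ω, F ω * op m n (fun ls => toL (gadgetValue Γ s a l l') ls ω) ∂ν)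
      (∫ ω, F ω * ω.2 (kidx Γ s) l l' ∂ν) := by
  obtain ⟨F', hF'm, hF'⟩ := hF.factor
  obtain ⟨C, hC0, hC⟩ := hF.bdd
  have hpos : 0 < C + 1 := by linarith
  set F₁ : RepData n → ℝ := fun z => max (-1) (min 1 (F' z / (C + 1)))
  have h := hν.gadget Γ s n l l' hl hl' F₁
    (measurable_const.max (measurable_const.min (hF'm.div_const _))) (fun z => by
      rw [abs_le]; exact ⟨le_max_left _ _, max_le (by norm_num) (min_le_left _ _)⟩)
  have hae : ∀ᵐ ω ∂ν, F₁ (repData n ω) = (C + 1)⁻¹ * F ω := by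
    filter_upwards [hC] with ω hω
    have h1 := abs_le.1 hω
    simp only [F₁, hF']
    rw [min_eq_right (by rw [div_le_one hpos]; linarith), max_eq_right (by
      rw [le_div_iff₀ hpos]; linarith), div_eq_inv_mul]
  have hconv : ∀ X : Arr → ℝ,
      ∫ ω, F₁ (repData n ω) * X ω ∂ν = (C + 1)⁻¹ * ∫ ω, F ω * X ω ∂ν := by
    intro X
    rw [← integral_const_mul]
    exact integral_congr_ae (hae.mono fun ω hω => by
      show F₁ (repData n ω) * X ω = (C + 1)⁻¹ * (F ω * X ω)
      rw [hω, mul_assoc])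
  have h2 := h.mul_left (C + 1)
  have hne : (C + 1) ≠ 0 := hpos.ne'
  simp only [hconv, ins_eq_toL] at h2
  rw [show (C + 1) * ((C + 1)⁻¹ * ∫ ω, F ω * ω.2 (kidx Γ s) l l' ∂ν) =
    ∫ ω, F ω * ω.2 (kidx Γ s) l l' ∂ν by rw [← mul_assoc, mul_inv_cancel₀ hne, one_mul]] at h2
  refine h2.congr_fun fun m => ?_
  simp only [Finset.mul_sum]
  refine Finset.sum_congr rfl fun a _ => ?_
  field_simp

/-- Signs of a choice of orientations. -/
def sgn {J : ℕ} (e : Fin J → Bool) : ℝ := ∏ a, spin (e a)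

/-- Averaged product of signs selecting the odd label counts. -/
def coef (J : ℕ) {m : ℕ} (a : Fin m → Fin J) : ℝ :=
  ((2 : ℝ) ^ J)⁻¹ * ∑ e : Fin J → Bool, sgn e * ∏ i, spin (e (a i))

lemma coef_missing {J m : ℕ} (a : Fin m → Fin J) {x : Fin J} (hx : ∀ i, a i ≠ x) :
    coef J a = 0 := by
  rw [coef, mul_eq_zero]
  right
  set S := ∑ e : Fin J → Bool, sgn e * ∏ i, spin (e (a i))
  have hflip : Function.Involutive fun e : Fin J → Bool => Function.update e x (!e x) := by
    intro e
    funext y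
    by_cases hy : y = x
    · subst hy; simp
    · simp [Function.update_of_ne hy]
  have : S = -S := by
    conv_lhs => rw [show S = ∑ e : Fin J → Bool, sgn e * ∏ i, spin (e (a i)) from rfl,
      ← Equiv.sum_comp hflip.toPerm]
    rw [← Finset.sum_neg_distrib]
    refine Finset.sum_congr rfl fun e _ => ?_
    show sgn (Function.update e x (!e x)) * ∏ i, spin (Function.update e x (!e x) (a i)) = _
    rw [Finset.prod_congr rfl fun i _ => by rw [Function.update_of_ne (hx i)]]
    have h1 : sgn (Function.update e x (!e x)) = -sgn e := by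
      simp only [sgn]
      rw [← Finset.mul_prod_erase _ _ (Finset.mem_univ x),
        ← Finset.mul_prod_erase _ _ (Finset.mem_univ x),
        Finset.prod_congr rfl fun y hy => by rw [Function.update_of_ne (Finset.ne_of_mem_erase hy)],
        Function.update_self]
      cases e x <;> simp [spin]
    rw [h1, neg_mul]
  linarith

lemma coef_perm {J : ℕ} (σ : Equiv.Perm (Fin J)) : coef J (fun i => σ i) = 1 := by
  have h : ∀ e : Fin J → Bool, sgn e * ∏ i, spin (e (σ i)) = 1 := by
    intro e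
    rw [Equiv.prod_comp σ fun a => spin (e a)]
    show sgn e * sgn e = 1
    rw [sgn, ← Finset.prod_mul_distrib]
    simp [spin_sq]
  simp only [coef, h, Finset.sum_const, Finset.card_univ, Fintype.card_fun, Fintype.card_fin,
    Fintype.card_bool, nsmul_eq_mul, Nat.cast_pow, Nat.cast_ofNat, mul_one]
  exact inv_mul_cancel₀ (by positivity)

lemma abs_coef_le {J m : ℕ} (a : Fin m → Fin J) : |coef J a| ≤ 1 := by
  have h : ∀ s : Bool, |spin s| = 1 := fun s => by cases s <;> simp [spin]
  rw [coef, abs_mul, abs_inv, abs_of_pos (by positivity : (0:ℝ) < 2 ^ J),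
    inv_mul_le_iff₀ (by positivity), mul_one]
  refine (Finset.abs_sum_le_sum_abs _ _).trans (le_of_eq ?_)
  simp [sgn, abs_mul, Finset.abs_prod, h]

lemma coef_eq_zero_of_not_bij {J : ℕ} (a : Fin J → Fin J) (ha : ¬ Function.Bijective a) :
    coef J a = 0 := by
  have : ¬ Function.Surjective a := fun h => ha ((Finite.surjective_iff_bijective).1 h)
  simp only [Function.Surjective, not_forall, not_exists] at this
  obtain ⟨x, hx⟩ := this
  exact coef_missing a hx

lemma wgt_tail {n m : ℕ} (hn : 1 ≤ n) :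
    wgt m n * (1 / 8 : ℝ) ^ m / (m.factorial : ℝ) ≤ (2 : ℝ) ^ (n - 1) * (1 / 2) ^ m := by
  obtain ⟨p, rfl⟩ : ∃ p, n = p + 1 := ⟨n - 1, by omega⟩
  have h1 := wgt_le m p
  have h2 : ((p + m).factorial : ℝ) ≤ 2 ^ (p + m) * ((p.factorial : ℝ) * (m.factorial : ℝ)) := by
    rw [← Nat.add_choose_mul_factorial_mul_factorial p m]
    push_cast
    rw [mul_assoc]
    refine mul_le_mul_of_nonneg_right ?_ (by positivity)
    exact_mod_cast Nat.choose_le_two_pow (p + m) m
  have h3 : wgt m (p + 1) ≤ 2 ^ m * 2 ^ (p + m) * (m.factorial : ℝ) := by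
    refine le_of_mul_le_mul_right ?_ (show (0:ℝ) < p.factorial by positivity)
    refine h1.trans ((mul_le_mul_of_nonneg_left h2 (by positivity)).trans (le_of_eq ?_))
    ring
  rw [div_le_iff₀ (by positivity), Nat.add_sub_cancel]
  refine (mul_le_mul_of_nonneg_right h3 (by positivity)).trans (le_of_eq ?_)
  have e : (2 : ℝ) ^ m * 2 ^ m * (1 / 8) ^ m = (1 / 2) ^ m := by
    rw [← mul_pow, ← mul_pow]; norm_num
  rw [pow_add]
  linear_combination ((2 : ℝ) ^ p * (m.factorial : ℝ)) * e

/-- The small tilt in the `k`-th approximation. -/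
def tq (J k : ℕ) : ℚ := 1 / (8 * ((J : ℚ) + 1) * ((k : ℚ) + 1))

def tiltOf {J : ℕ} (k : ℕ) (e : Fin J → Bool) : Fin J → ℚ :=
  fun a => if e a then tq J k else -tq J k

lemma tilt_tiltOf {J : ℕ} (E : List (List ℕ)) (k : ℕ) (e : Fin J → Bool) (a : Fin J) :
    (gadgetOf J E (tiltOf k e)).tilt a = spin (e a) * (tq J k : ℝ) := by
  have hsum : ∑ i, |tiltOf k e i| ≤ 1 / 8 := by
    have h1 : ∀ i, |tiltOf k e i| = tq J k := fun i => by
      have h0 : 0 ≤ tq J k := by unfold tq; positivity
      simp only [tiltOf]; split_ifs <;> simp [abs_of_nonneg h0]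
    rw [Finset.sum_congr rfl fun i _ => h1 i, Finset.sum_const, Finset.card_univ,
      Fintype.card_fin, nsmul_eq_mul, tq, mul_one_div, div_le_iff₀ (by positivity)]
    nlinarith [(Nat.cast_nonneg J : (0:ℚ) ≤ J), (Nat.cast_nonneg k : (0:ℚ) ≤ k),
      mul_nonneg (Nat.cast_nonneg J : (0:ℚ) ≤ J) (Nat.cast_nonneg k : (0:ℚ) ≤ k)]
  show (if ∑ i : Fin J, |tiltOf k e i| ≤ 1 / 8 then ((tiltOf k e a : ℚ) : ℝ) else 0) = _
  rw [if_pos hsum]
  simp only [tiltOf, spin]
  split_ifs <;> simp

/-- The difference of gadget values in expectation. -/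
def dval (ν : Measure Arr) (J : ℕ) (E : List (List ℕ)) (n : ℕ) (F : Arr → ℝ) {m : ℕ}
    (a : Fin m → Fin J) : ℝ :=
  (∫ ω, F ω * op m n (fun ls => toL (gadgetValue (gadgetOf J E fun _ => 0) true a 0 1) ls ω) ∂ν) -
  ∫ ω, F ω * op m n (fun ls => toL (gadgetValue (gadgetOf J E fun _ => 0) false a 0 1) ls ω) ∂ν

lemma abs_dval_le {ν : Measure Arr} [IsFiniteMeasure ν] {J : ℕ} {E : List (List ℕ)} {n m : ℕ}
    {F : Arr → ℝ} (hF : TestFn ν n F) (a : Fin m → Fin J) :
    |dval ν J E n F a| ≤ 2 * wgt m n * ∫ ω, |F ω| ∂ν := by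
  obtain ⟨C, hC0, hC⟩ := hF.bdd
  have h : ∀ s, |∫ ω, F ω * op m n (fun ls =>
      toL (gadgetValue (gadgetOf J E fun _ => 0) s a 0 1) ls ω) ∂ν| ≤ wgt m n * ∫ ω, |F ω| ∂ν := by
    intro s
    rw [← integral_const_mul]
    refine (abs_integral_le_integral_abs).trans (integral_mono_of_nonneg
      (Eventually.of_forall fun _ => abs_nonneg _)
      ((integrable_of_bdd hF.meas hC).abs.const_mul _) (Eventually.of_forall fun ω => ?_))
    show |F ω * op m n _| ≤ wgt m n * |F ω|
    rw [abs_mul, mul_comm (wgt m n)]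
    refine mul_le_mul_of_nonneg_left ?_ (abs_nonneg _)
    refine (abs_op_le fun l _ _ => abs_gadgetValue_le _ _ _ _ _ _ _).trans (le_of_eq (mul_one _))
  exact (abs_sub _ _).trans (by linarith [h true, h false])

/-- A monomial in multi-overlaps is good. -/
theorem good_edges {ν : Measure Arr} {ρ : ℝ} (hg : IsGadgetArray ν) (ht : IsTreeArray ν ρ)
    {J : ℕ} {E : List (List ℕ)} (hE : ∀ e ∈ E, ∀ x ∈ e, x < 2 + J) : Good ν J (pval E []) := by
  haveI := hg.prob
  choose φ hφL hφM hφ using ht.sync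
  set P : ℕ → ℝ := fun k => ((tq J k : ℝ) ^ J)⁻¹ * ((2 : ℝ) ^ J)⁻¹
  set c : ℕ → ℝ → ℝ := fun k q => P k * ∑ e : Fin J → Bool,
    sgn e * (φ (kidx (gadgetOf J E (tiltOf k e)) true) q -
      φ (kidx (gadgetOf J E (tiltOf k e)) false) q)
  set τ : ℝ := 1 / (8 * ((J : ℝ) + 1))
  refine good_of_approx ht c (fun k => by
    refine Continuous.mul continuous_const (continuous_finsetSum _ fun e _ => ?_)
    exact continuous_const.mul ((hφL _).continuous.sub (hφL _).continuous))
    (fun n k => 2 * 2 ^ (n - 1) * 2 * (τ ^ J)⁻¹ / ((k : ℝ) + 1)) (fun n _ => ?_) ?_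
  · have h := (tendsto_one_div_add_atTop_nhds_zero_nat (𝕜 := ℝ)).const_mul
      (2 * 2 ^ (n - 1) * 2 * (τ ^ J)⁻¹)
    simpa [div_eq_mul_inv] using h
  intro k n F hn hF
  obtain ⟨C, hC0, hC⟩ := hF.bdd
  set t : ℝ := (tq J k : ℝ) with htdef
  have ht0 : 0 < t := by rw [htdef, tq]; push_cast; positivity
  set T : ℕ → ℝ := fun m => (t ^ J)⁻¹ * t ^ m / (m.factorial : ℝ) *
    ∑ a : Fin m → Fin J, coef J a * dval ν J E n F a
  have hki : ∀ g, Integrable (fun ω => F ω * ω.2 g 0 1) ν := fun g =>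
    integrable_of_bdd (C := C) (hF.meas.mul (by fun_prop)) (by
      filter_upwards [hC, hg.bound g 0 1] with ω h1 h2
      rw [abs_mul]
      exact (mul_le_mul h1 h2 (abs_nonneg _) hC0).trans (le_of_eq (mul_one C)))
  have hsum : HasSum T (∫ ω, F ω * c k (rbar 0 1 ω) ∂ν) := by
    have h1 : ∀ e : Fin J → Bool, ∀ s, HasSum (fun m : ℕ => (m.factorial : ℝ)⁻¹ *
        ∑ a : Fin m → Fin J, (∏ i, spin (e (a i)) * t) *
          ∫ ω, F ω * op m n (fun ls =>
            toL (gadgetValue (gadgetOf J E fun _ => 0) s a 0 1) ls ω) ∂ν)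
        (∫ ω, F ω * ω.2 (kidx (gadgetOf J E (tiltOf k e)) s) 0 1 ∂ν) := by
      intro e s
      have h := gadget_test hg (gadgetOf J E (tiltOf k e)) s (n := n) (l := 0) (l' := 1)
        (by omega) (by omega) hF
      refine h.congr_fun fun m => ?_
      refine congrArg _ (Finset.sum_congr rfl fun a _ => ?_)
      congr 1
      exact Finset.prod_congr rfl fun i _ => (tilt_tiltOf E k e (a i)).symm
    have h2 := (hasSum_sum (s := (Finset.univ : Finset (Fin J → Bool))) fun e _ =>
      (((h1 e true).sub (h1 e false)).mul_left (sgn e))).mul_left (P k)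
    have hval : ∫ ω, F ω * c k (rbar 0 1 ω) ∂ν = P k * ∑ e : Fin J → Bool, sgn e *
        (∫ ω, F ω * ω.2 (kidx (gadgetOf J E (tiltOf k e)) true) 0 1 ∂ν -
          ∫ ω, F ω * ω.2 (kidx (gadgetOf J E (tiltOf k e)) false) 0 1 ∂ν) := by
      have hc : ∀ᵐ ω ∂ν, F ω * c k (rbar 0 1 ω) =
          P k * ∑ e : Fin J → Bool, sgn e *
            (F ω * ω.2 (kidx (gadgetOf J E (tiltOf k e)) true) 0 1 -
              F ω * ω.2 (kidx (gadgetOf J E (tiltOf k e)) false) 0 1) := by
        filter_upwards [ae_all_iff.2 fun g => hφ g 0 1] with ω hω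
        simp only [c, Finset.mul_sum]
        refine Finset.sum_congr rfl fun e _ => ?_
        rw [hω, hω]; ring
      rw [integral_congr_ae hc, integral_const_mul, integral_finsetSum _ fun e _ =>
        (show Integrable (fun ω => sgn e * (F ω * ω.2 (kidx (gadgetOf J E (tiltOf k e)) true) 0 1 -
          F ω * ω.2 (kidx (gadgetOf J E (tiltOf k e)) false) 0 1)) ν from
          ((hki _).sub (hki _)).const_mul _)]
      congr 1
      refine Finset.sum_congr rfl fun e _ => ?_
      rw [integral_const_mul, integral_sub (hki _) (hki _)]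
    rw [hval]
    refine h2.congr_fun fun m => ?_
    simp only [T, P, ← htdef, dval, coef, Finset.mul_sum, Finset.sum_mul, ← Finset.sum_sub_distrib]
    rw [Finset.sum_comm]
    refine Finset.sum_congr rfl fun e _ => Finset.sum_congr rfl fun a _ => ?_
    rw [Finset.prod_mul_distrib, Finset.prod_const, Finset.card_univ, Fintype.card_fin]
    ring
  have hlt : ∀ m < J, T m = 0 := by
    intro m hm
    simp only [T]
    rw [Finset.sum_eq_zero fun a _ => ?_, mul_zero]
    obtain ⟨x, hx⟩ : ∃ x, ∀ i, a i ≠ x := by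
      by_contra hc
      push Not at hc
      have := Fintype.card_le_of_surjective a hc
      simp only [Fintype.card_fin] at this
      omega
    rw [coef_missing a hx, zero_mul]
  have hEI : T J = EI ν n F J (pval E []) := by
    have hD : ∀ σ : Equiv.Perm (Fin J), dval ν J E n F (fun i => σ i) = EI ν n F J (pval E []) := by
      intro σ
      have hobs := isObs_sym (isObs_pval ht.toIsGGArray hE (Ks := []) (by simp))
      rw [EI, ← lEI_perm ht.toIsGGArray σ⁻¹ n F _ hF (hobs.listObs hn), lEI, dval]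
      have hi : ∀ s, Integrable (fun ω => F ω * op J n (fun ls =>
          toL (gadgetValue (gadgetOf J E fun _ => 0) s (fun i => σ i) 0 1) ls ω)) ν := fun s =>
        integrable_mul_op (n := n) hF.meas hC (fun l => measurable_gadgetValue _ _ _ _ _ _)
          (fun l => Eventually.of_forall fun ω => abs_gadgetValue_le _ _ _ _ _ _ _)
      rw [← integral_sub (hi true) (hi false)]
      refine integral_congr_ae (Eventually.of_forall fun ω => ?_)
      show F ω * op J n _ - F ω * op J n _ = F ω * op J n _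
      rw [← mul_sub, ← op_sub]
      congr 1
      refine op_congr fun l hl _ => ?_
      simp only [toL]
      rw [gadget_cross hE _ σ _ ω]
      have e1 : (List.ofFn fun i : Fin J => l.getD i 0) = l := by
        refine List.ext_getElem (by simp [hl]) fun j h1 h2 => ?_
        rw [List.getElem_ofFn]
        exact List.getD_eq_getElem _ _ h2
      rw [e1]
      rfl
    simp only [T]
    have hsumbij : ∑ a : Fin J → Fin J, coef J a * dval ν J E n F a =
        ∑ σ : Equiv.Perm (Fin J), coef J (fun i => σ i) * dval ν J E n F (fun i => σ i) := by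
      classical
      refine (Finset.sum_bij_ne_zero (s := (Finset.univ : Finset (Equiv.Perm (Fin J))))
        (t := (Finset.univ : Finset (Fin J → Fin J)))
        (f := fun σ => coef J (fun i => σ i) * dval ν J E n F (fun i => σ i))
        (g := fun a => coef J a * dval ν J E n F a)
        (fun σ _ _ => fun i => σ i) (fun σ _ _ => Finset.mem_univ _) (fun σ _ _ τ _ _ h => ?_)
        (fun a _ ha => ?_) (fun σ _ _ => rfl)).symm
      · exact Equiv.ext fun i => congrFun h i
      · have hb : Function.Bijective a := by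
          by_contra hb
          exact ha (by rw [coef_eq_zero_of_not_bij a hb, zero_mul])
        exact ⟨Equiv.ofBijective a hb, Finset.mem_univ _, ha, rfl⟩
    rw [hsumbij, Finset.sum_congr rfl fun σ _ => by rw [coef_perm, one_mul, hD],
      Finset.sum_const, Finset.card_univ, Fintype.card_perm, Fintype.card_fin, nsmul_eq_mul,
      inv_mul_cancel₀ (by positivity)]
    field_simp
  set Cf := ∫ ω, |F ω| ∂ν
  have hCf : 0 ≤ Cf := integral_nonneg fun ω => abs_nonneg _
  have hbound : ∀ m, J < m →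
      |T m| ≤ (τ ^ J)⁻¹ / ((k : ℝ) + 1) * (2 * 2 ^ (n - 1) * Cf) * (1 / 2) ^ m := by
    intro m hm
    have hd : ∀ a : Fin m → Fin J, |coef J a * dval ν J E n F a| ≤ 2 * wgt m n * Cf := fun a => by
      rw [abs_mul]
      exact (mul_le_mul (abs_coef_le a) (abs_dval_le hF a) (abs_nonneg _) zero_le_one).trans
        (le_of_eq (one_mul _))
    have h1 : |T m| ≤ (t ^ J)⁻¹ * t ^ m / (m.factorial : ℝ) *
        ((J : ℝ) ^ m * (2 * wgt m n * Cf)) := by
      simp only [T]
      rw [abs_mul, abs_of_nonneg (show 0 ≤ (t ^ J)⁻¹ * t ^ m / (m.factorial : ℝ) by positivity)]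
      refine mul_le_mul_of_nonneg_left ((Finset.abs_sum_le_sum_abs _ _).trans
        ((Finset.sum_le_sum fun a _ => hd a).trans (le_of_eq ?_))) (by positivity)
      simp
    have hτ : 0 < τ := by positivity
    have hkpos : (1 : ℝ) ≤ (k : ℝ) + 1 := by
      linarith [(Nat.cast_nonneg k : (0:ℝ) ≤ k)]
    have ht1 : t = τ / ((k : ℝ) + 1) := by
      rw [htdef, tq]; push_cast; simp only [τ]; rw [div_div]
    have h2 : (t ^ J)⁻¹ * t ^ m ≤ (τ ^ J)⁻¹ * τ ^ m / ((k : ℝ) + 1) := by
      obtain ⟨p, rfl⟩ : ∃ p, m = J + (p + 1) := ⟨m - J - 1, by omega⟩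
      rw [pow_add t J, ← mul_assoc, inv_mul_cancel₀ (by positivity), one_mul, pow_add τ J,
        ← mul_assoc, inv_mul_cancel₀ (by positivity), one_mul, ht1, div_pow]
      exact div_le_div_of_nonneg_left (by positivity) (by positivity)
        (le_self_pow₀ hkpos (by omega))
    have h4 : τ ^ m * (J : ℝ) ^ m ≤ (1 / 8) ^ m := by
      rw [← mul_pow]
      refine pow_le_pow_left₀ (by positivity) ?_ m
      simp only [τ]
      rw [div_mul_eq_mul_div, one_mul, div_le_iff₀ (by positivity)]
      linarith [(Nat.cast_nonneg J : (0:ℝ) ≤ J)]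
    have h3 := wgt_tail (n := n) (m := m) (by omega)
    have hw : 0 ≤ wgt m n := wgt_nonneg m n
    calc |T m| ≤ ((τ ^ J)⁻¹ * τ ^ m / ((k : ℝ) + 1)) / (m.factorial : ℝ) *
          ((J : ℝ) ^ m * (2 * wgt m n * Cf)) := h1.trans (by gcongr)
      _ = (τ ^ J)⁻¹ / ((k : ℝ) + 1) * (2 * Cf) *
          ((τ ^ m * (J : ℝ) ^ m) * wgt m n / (m.factorial : ℝ)) := by ring
      _ ≤ (τ ^ J)⁻¹ / ((k : ℝ) + 1) * (2 * Cf) * (wgt m n * (1 / 8) ^ m / (m.factorial : ℝ)) := by
          rw [mul_comm (wgt m n)]; gcongr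
      _ ≤ (τ ^ J)⁻¹ / ((k : ℝ) + 1) * (2 * Cf) * (2 ^ (n - 1) * (1 / 2) ^ m) := by gcongr
      _ = _ := by ring
  set D := (τ ^ J)⁻¹ / ((k : ℝ) + 1) * (2 * 2 ^ (n - 1) * Cf)
  have hD0 : 0 ≤ D := by positivity
  have hg2 : HasSum (fun m : ℕ => D * (1 / 2 : ℝ) ^ m) (D * 2) := hasSum_geometric_two.mul_left D
  have htail := hsum.update J 0
  have habs : ∀ m, |Function.update T J 0 m| ≤ D * (1 / 2) ^ m := by
    intro m
    rcases lt_trichotomy m J with h | h | h
    · rw [Function.update_of_ne h.ne, hlt m h, abs_zero]; positivity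
    · subst h; rw [Function.update_self, abs_zero]; positivity
    · rw [Function.update_of_ne h.ne']; exact hbound m h
  have hfin := tsum_of_norm_bounded hg2 (f := Function.update T J 0) habs
  rw [htail.tsum_eq, Real.norm_eq_abs] at hfin
  rw [← hEI]
  refine le_trans (le_of_eq ?_) (hfin.trans (le_of_eq ?_))
  · congr 1; ring
  · simp only [D]; ring

end Vale.Agent.P168.Core
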