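import Vale.Agent.P168.Core.SW

/-! Continuity of conditional moments of multi-overlaps: the field `core_cont`. -/

open MeasureTheory Filter
open scoped BigOperators Topology

noncomputable section

namespace Vale.Agent.P168.Core

lemma isObs_mObs {ν : Measure Arr} (hν : IsGGArray ν) {d : ℕ} {φ : Mat (2 + d) → ℝ}
    (hφm : Measurable φ) {B : ℝ} (hB0 : 0 ≤ B)
    (hB : ∀ u : Fin (2 + d) → ℕ, ∀ᵐ ω ∂ν, |φ (tmat u ω)| ≤ B) {E : List (List ℕ)}
    {Ks : List (ℕ × ℕ × ℕ)} (hE : ∀ e ∈ E, ∀ x ∈ e, x < 2 + d)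
    (hK : ∀ k ∈ Ks, k.2.1 < 2 + d ∧ k.2.2 < 2 + d) : IsObs ν d (mObs d φ E Ks) := by
  have hp := isObs_pval hν hE hK
  refine ⟨fun u => (hφm.comp (measurable_tmat _)).mul (measurable_pval _ _ _),
    fun π u ω => ?_, fun n u hu ω ω' e => ?_, fun u u' h => ?_, B, hB0, fun u => ?_⟩
  · simp only [mObs]
    rw [hp.equiv π u ω]
    rfl
  · simp only [mObs]
    rw [hp.data n u hu ω ω' e]
    congr 2
    funext a b
    exact rbar_data (hu _ a.isLt) (hu _ b.isLt) e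
  · funext ω
    simp only [mObs]
    rw [hp.loc u u' h]
    congr 3
    funext i
    exact h _ i.isLt
  · filter_upwards [hB (fun i => u i.val), abs_pval_le hν E Ks] with ω h1 h2
    rw [mObs, abs_mul]
    exact (mul_le_mul h1 (h2 u) (abs_nonneg _) hB0).trans_eq (mul_one _)

lemma pl_range' (d : ℕ) {x : ℕ} (hx : x < 2 + d) : pl (List.range' 2 d) x = x := by
  rcases x with _ | _ | x
  · rfl
  · rfl
  · show (List.range' 2 d).getD x 0 = x + 2
    rw [List.getD_eq_getElem _ _ (by simp; omega), List.getElem_range']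
    omega

lemma exists_merge {d : ℕ} {l : List ℕ} (hl : l.length = d)
    (h : ¬(l.Nodup ∧ ∀ x ∈ l, 2 ≤ x)) :
    ∃ i j : Fin (2 + d), i ≠ j ∧ pl l i.val = pl l j.val := by
  have h' : ¬ ((0 : ℕ) :: 1 :: l).Nodup := by
    intro hn
    simp only [List.nodup_cons, List.mem_cons, not_or] at hn
    refine h ⟨hn.2.2, fun x hx => ?_⟩
    rcases x with _ | _ | x
    · exact absurd hx hn.1.2
    · exact absurd hx hn.2.1
    · omega
  rw [List.nodup_iff_injective_get, Function.not_injective_iff] at h'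
  obtain ⟨a, b, hab, hne⟩ := h'
  have ha := a.isLt
  have hb := b.isLt
  simp only [List.length_cons, hl] at ha hb
  refine ⟨⟨a.val, by omega⟩, ⟨b.val, by omega⟩, fun e => hne (Fin.ext (Fin.mk.inj e)), ?_⟩
  show ((0 : ℕ) :: 1 :: l).getD a.val 0 = ((0 : ℕ) :: 1 :: l).getD b.val 0
  rw [List.getD_eq_getElem _ _ a.isLt, List.getD_eq_getElem _ _ b.isLt]
  exact hab

lemma ae_mObs_merge {ν : Measure Arr} {ρ : ℝ} (ht : IsTreeArray ν ρ) {d : ℕ}
    {φ : Mat (2 + d) → ℝ} (hφ : ∀ T, (∃ i j, i ≠ j ∧ ρ ≤ T i j) → φ T = 0) (E : List (List ℕ))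
    (Ks : List (ℕ × ℕ × ℕ)) {u : ℕ → ℕ} (h : ∃ i j : Fin (2 + d), i ≠ j ∧ u i.val = u j.val) :
    ∀ᵐ ω ∂ν, mObs d φ E Ks u ω = 0 := by
  obtain ⟨i, j, hij, he⟩ := h
  filter_upwards [ht.rbar_diag (u i.val)] with ω hω
  rw [mObs, hφ _ ⟨i, j, hij, ?_⟩, zero_mul]
  show ρ ≤ rbar (u i.val) (u j.val) ω
  rw [← he, hω]

/-- Two old replicas and an observable killed by merges: only the fresh path survives. -/
lemma EI_two {ν : Measure Arr} {ρ : ℝ} (ht : IsTreeArray ν ρ) {d : ℕ} {X : Obs}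
    (hX : IsObs ν d X)
    (hmerge : ∀ u : ℕ → ℕ, (∃ i j : Fin (2 + d), i ≠ j ∧ u i.val = u j.val) → ∀ᵐ ω ∂ν, X u ω = 0)
    {g : ℝ → ℝ} (hg : Measurable g) (hgb : ∀ q, |g q| ≤ 1) :
    EI ν 2 (fun ω => g (rbar 0 1 ω)) d X = fwgt d 2 * ∫ ω, g (rbar 0 1 ω) * X id ω ∂ν := by
  haveI := ht.prob
  have hF := testFn_rbar (ν := ν) hg zero_le_one hgb (le_refl 2)
  set π : Equiv.Perm ℕ := Equiv.swap 0 1 with hπ
  have hswap : ∀ x < 2 + d, π x < 2 + d := by
    intro x hx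
    simp only [hπ, Equiv.swap_apply_def]
    split_ifs <;> omega
  have key : ∀ σ : Equiv.Perm ℕ, (∀ x < 2 + d, σ x < 2 + d) →
      sEI ν (fun x => σ x) 2 (fun ω => g (rbar 0 1 ω)) d X =
        fwgt d 2 * ∫ ω, g (rbar 0 1 ω) * X (fun x => σ x) ω ∂ν := by
    intro σ hσ
    unfold sEI lEI
    rw [← integral_const_mul]
    refine integral_congr_ae ?_
    have h : ∀ᵐ ω ∂ν, ∀ l : List ℕ, l.length = d → ¬(l.Nodup ∧ ∀ x ∈ l, 2 ≤ x) →
        X (fun x => pl l (σ x)) ω = 0 := by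
      rw [ae_all_iff]
      intro l
      by_cases hl : l.length = d ∧ ¬(l.Nodup ∧ ∀ x ∈ l, 2 ≤ x)
      · obtain ⟨i, j, hij, he⟩ := exists_merge hl.1 hl.2
        have hb : ∀ x < 2 + d, σ.symm x < 2 + d := by
          intro x hx
          by_contra hge
          have hinj : Function.Injective fun y : Fin (2 + d) => (⟨σ y, hσ y y.isLt⟩ : Fin (2 + d)) :=
            fun y z h => Fin.ext (σ.injective (Fin.mk.inj h))
          obtain ⟨y, hy⟩ := (Finite.injective_iff_surjective.1 hinj) ⟨x, hx⟩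
          have hy' : σ y.val = x := Fin.mk.inj hy
          rw [← hy', Equiv.symm_apply_apply] at hge
          exact hge y.isLt
        refine (hmerge (fun x => pl l (σ x)) ⟨⟨σ.symm i.val, hb _ i.isLt⟩,
          ⟨σ.symm j.val, hb _ j.isLt⟩, fun e => hij (Fin.ext (σ.symm.injective (Fin.mk.inj e))),
          by simpa using he⟩).mono fun ω hω _ _ => hω
      · exact Eventually.of_forall fun ω h1 h2 => absurd ⟨h1, h2⟩ hl
    filter_upwards [h] with ω hω
    rw [op_fresh (fun l hl _ hn => hω l hl hn),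
      hX.loc (fun x => pl (List.range' 2 d) (σ x)) (fun x => σ x) fun x hx => pl_range' d (hσ x hx)]
    ring
  have hsym : ∫ ω, g (rbar 0 1 ω) * X (fun x => π x) ω ∂ν = ∫ ω, g (rbar 0 1 ω) * X id ω ∂ν := by
    rw [← integral_perm ht.toIsGGArray π (f := fun ω => g (rbar 0 1 ω) * X id ω)
      ((hg.comp (measurable_rbar 0 1)).mul (hX.meas id))]
    refine integral_congr_ae ?_
    filter_upwards [ht.rbar_symm 1 0] with ω hω
    rw [← rbar_perm, ← hX.equiv π id ω]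
    simp only [hπ, Equiv.swap_apply_left, Equiv.swap_apply_right, hω]
    rfl
  have k1 := key 1 fun x hx => hx
  have k2 := key π hswap
  simp only [Equiv.Perm.one_apply] at k1
  rw [EI_eq_half hF hX]
  change sEI ν id 2 (fun ω => g (rbar 0 1 ω)) d X =
    fwgt d 2 * ∫ ω, g (rbar 0 1 ω) * X id ω ∂ν at k1
  rw [k1, show sEI ν (fun x => (Equiv.swap 0 1) x) 2 (fun ω => g (rbar 0 1 ω)) d X = _ from k2, hsym]
  ring

/-- The field `core_cont`. -/
theorem core_cont {ν : Measure Arr} {ρ : ℝ} (hg : IsGadgetArray ν) (ht : IsTreeArray ν ρ) (d : ℕ)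
    (φ : Mat (2 + d) → ℝ) (U : Finset (Fin (2 + d))) (hφ : Continuous φ)
    (hv : ∀ T, (∃ i j, i ≠ j ∧ ρ ≤ T i j) → φ T = 0) :
    ∃ c : ℝ → ℝ, Continuous c ∧ ∀ g : ℝ → ℝ, Measurable g → (∀ q, |g q| ≤ 1) →
      ∫ ω, g (rbar 0 1 ω) * (φ (tmat (idRep (2 + d)) ω) *
          rset (((List.finRange (2 + d)).filter fun i => i ∈ U).map (idRep (2 + d))) ω) ∂ν =
        ∫ ω, g (rbar 0 1 ω) * c (rbar 0 1 ω) ∂ν := by
  set L := ((List.finRange (2 + d)).filter fun i => i ∈ U).map (idRep (2 + d)) with hL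
  have hE : ∀ e ∈ [L], ∀ x ∈ e, x < 2 + d := by
    intro e he x hx
    rw [List.mem_singleton.1 he, hL, List.mem_map] at hx
    obtain ⟨i, -, rfl⟩ := hx
    exact i.isLt
  obtain ⟨c, hc, hc2⟩ := goodMul_continuous hg ht (d := d) hφ [L] [] hE (by simp)
  obtain ⟨B, hB⟩ := (isCompact_cube (2 + d) ρ).exists_bound_of_continuousOn hφ.continuousOn
  have hX := isObs_mObs ht.toIsGGArray hφ.measurable (le_max_right B 0)
    (fun u => (ae_tmat_mem ht u).mono fun ω hω => ((hB _ hω).trans (le_max_left _ _)))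
    hE (Ks := []) (by simp)
  have hA : fwgt d 2 ≠ 0 := fwgt_ne_zero d 2 (by norm_num)
  refine ⟨fun q => c q / fwgt d 2, hc.div_const _, fun g hg hgb => ?_⟩
  have h1 := hc2 2 _ le_rfl (testFn_rbar hg zero_le_one hgb (le_refl 2))
  rw [EI_two ht hX (fun u hu => ae_mObs_merge ht hv _ _ hu) hg hgb] at h1
  have e1 : ∀ ω, g (rbar 0 1 ω) * mObs d φ [L] [] id ω =
      g (rbar 0 1 ω) * (φ (tmat (idRep (2 + d)) ω) * rset L ω) := fun ω => by
    simp only [mObs, pval, List.map_cons, List.map_nil, List.prod_cons, List.prod_nil, mul_one,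
      List.map_id_fun, id_eq]
    rfl
  simp only [e1] at h1
  have e2 : ∀ ω, g (rbar 0 1 ω) * (c (rbar 0 1 ω) / fwgt d 2) =
      g (rbar 0 1 ω) * c (rbar 0 1 ω) / fwgt d 2 := fun ω => by ring
  simp only [e2]
  rw [integral_div, ← h1, mul_div_cancel_left₀ _ hA]

end Vale.Agent.P168.Core
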