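import Vale.Agent.P168.Core.Pattern

/-! The property that insertions of an observable are a continuous function of the overlap. -/

open MeasureTheory Filter
open scoped BigOperators Topology

noncomputable section

namespace Vale.Agent.P168.Core

/-- Symmetrisation in the two pins. -/
def sym (G : Obs) : Obs := fun u ω => (G u ω + G (fun x => u (Equiv.swap 0 1 x)) ω) / 2

/-- The expected insertion of the symmetrised observable. -/
def EI (ν : Measure Arr) (n : ℕ) (F : Arr → ℝ) (J : ℕ) (G : Obs) : ℝ :=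
  lEI ν n F J (ofObs (sym G))

/-- Insertions of `G` are given by a continuous function of the master overlap of the pins. -/
def Good (ν : Measure Arr) (J : ℕ) (G : Obs) : Prop :=
  ∃ c : ℝ → ℝ, Continuous c ∧ ∀ (n : ℕ) (F : Arr → ℝ), 2 ≤ n → TestFn ν n F →
    EI ν n F J G = ∫ ω, F ω * c (rbar 0 1 ω) ∂ν

lemma measurable_rbar (a b : ℕ) : Measurable (rbar a b) :=
  Measurable.tsum fun g => measurable_const.mul (by fun_prop)

lemma rbar_data {n a b : ℕ} (ha : a < n) (hb : b < n) {ω ω' : Arr}
    (e : repData n ω = repData n ω') : rbar a b ω = rbar a b ω' := by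
  simp only [rbar]
  refine tsum_congr fun g => ?_
  congr 1
  exact congrFun (congrFun (congrFun (congrArg Prod.snd e) g) ⟨a, ha⟩) ⟨b, hb⟩

lemma rbar_perm (π : Equiv.Perm ℕ) (a b : ℕ) (ω : Arr) :
    rbar (π a) (π b) ω = rbar a b (permRep π ω) := rfl

lemma testFn_rbar {ν : Measure Arr} {g : ℝ → ℝ} (hg : Measurable g) {C : ℝ} (hC : 0 ≤ C)
    (hb : ∀ q, |g q| ≤ C) {n : ℕ} (hn : 2 ≤ n) : TestFn ν n fun ω => g (rbar 0 1 ω) :=
  ⟨hg.comp (measurable_rbar 0 1),
    fun _ _ e => congrArg g (rbar_data (by omega) (by omega) e),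
    C, hC, Eventually.of_forall fun _ => hb _⟩

lemma isObs_sym {ν : Measure Arr} {J : ℕ} {G : Obs} (hG : IsObs ν J G) : IsObs ν J (sym G) := by
  obtain ⟨C, hC0, hC⟩ := hG.bdd
  have hsw : ∀ i < 2 + J, Equiv.swap 0 1 i < 2 + J := by
    intro i hi
    rw [Equiv.swap_apply_def]; split_ifs <;> omega
  refine ⟨fun u => ((hG.meas u).add (hG.meas _)).div_const 2, fun π u ω => ?_,
    fun n u hu ω ω' e => ?_, fun u u' h => ?_, C, hC0, fun u => ?_⟩
  · simp only [sym]
    rw [← hG.equiv π u ω, ← hG.equiv π (fun x => u (Equiv.swap 0 1 x)) ω]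
    rfl
  · simp only [sym]
    rw [hG.data n u hu ω ω' e, hG.data n _ (fun i hi => hu _ (hsw i hi)) ω ω' e]
  · funext ω
    simp only [sym]
    rw [hG.loc u u' h, hG.loc _ (fun x => u' (Equiv.swap 0 1 x)) fun i hi => h _ (hsw i hi)]
  · filter_upwards [hC u, hC fun x => u (Equiv.swap 0 1 x)] with ω h1 h2
    simp only [sym]
    rw [abs_div, abs_two, div_le_iff₀ two_pos]
    exact (abs_add_le _ _).trans (by linarith)

lemma IsObs.listObs {ν : Measure Arr} {J : ℕ} {G : Obs} (hG : IsObs ν J G) {n : ℕ} (hn : 2 ≤ n) :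
    ListObs ν n (ofObs G) := by
  obtain ⟨C, hC0, hC⟩ := hG.bdd
  refine ⟨fun l => hG.meas _, fun π hπ l ω => ?_, C, hC0, fun l => hC _⟩
  simp only [ofObs]
  rw [← hG.equiv π (pl l) ω]
  congr 1
  funext i
  simp only [pl, Function.comp_apply]
  have h0 : π 0 = 0 := hπ 0 (by omega)
  have h1 : π 1 = 1 := hπ 1 (by omega)
  rcases i with _ | _ | i
  · simp [h0]
  · simp [h1]
  · simp only [List.getD_cons_succ]
    have := List.getD_map (f := π) (l := l) (d := (0 : ℕ)) (n := i)
    rw [h0] at this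
    exact this

lemma integrable_of_bdd {ν : Measure Arr} [IsFiniteMeasure ν] {f : Arr → ℝ} {C : ℝ}
    (hf : Measurable f) (hb : ∀ᵐ ω ∂ν, |f ω| ≤ C) : Integrable f ν :=
  Integrable.mono' (integrable_const C) hf.aestronglyMeasurable hb

lemma ae_abs_le_of_integral_le {μ : Measure ℝ} [IsFiniteMeasure μ] {h : ℝ → ℝ} {ε : ℝ}
    (hm : Measurable h) (hi : Integrable h μ)
    (hle : ∀ g : ℝ → ℝ, Measurable g → (∀ q, |g q| ≤ 1) →
      |∫ q, g q * h q ∂μ| ≤ ε * ∫ q, |g q| ∂μ) : ∀ᵐ q ∂μ, |h q| ≤ ε := by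
  set A := {q | ε < |h q|} with hA
  have hAm : MeasurableSet A := measurableSet_lt measurable_const hm.abs
  set g := A.indicator (fun q => if 0 ≤ h q then (1 : ℝ) else -1)
  have hgm : Measurable g :=
    (Measurable.ite (measurableSet_le measurable_const hm) measurable_const measurable_const).indicator hAm
  have hgb : ∀ q, |g q| ≤ 1 := by
    intro q
    by_cases hq : q ∈ A
    · simp only [g, Set.indicator_of_mem hq]; split_ifs <;> simp
    · simp [g, Set.indicator_of_notMem hq]
  have h1 : ∀ q, g q * h q = A.indicator (fun q => |h q|) q := by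
    intro q
    by_cases hq : q ∈ A
    · simp only [g, Set.indicator_of_mem hq]
      split_ifs with h0
      · rw [one_mul, abs_of_nonneg h0]
      · rw [abs_of_neg (not_le.1 h0)]; ring
    · simp [g, Set.indicator_of_notMem hq]
  have h2 : ∀ q, |g q| = A.indicator (fun _ => (1 : ℝ)) q := by
    intro q
    by_cases hq : q ∈ A
    · simp only [g, Set.indicator_of_mem hq]; split_ifs <;> simp
    · simp [g, Set.indicator_of_notMem hq]
  have h3 := hle g hgm hgb
  simp only [h1, h2] at h3
  have hint : Integrable (fun q => A.indicator (fun q => |h q| - ε) q) μ :=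
    (hi.abs.sub (integrable_const ε)).indicator hAm
  have h4 : ∫ q, A.indicator (fun q => |h q| - ε) q ∂μ ≤ 0 := by
    have e : (fun q => A.indicator (fun q => |h q| - ε) q) =
        fun q => A.indicator (fun q => |h q|) q - ε * A.indicator (fun _ => (1 : ℝ)) q := by
      funext q; by_cases hq : q ∈ A <;> simp [hq]
    rw [e, integral_sub (hi.abs.indicator hAm) (((integrable_const 1).indicator hAm).const_mul ε),
      integral_const_mul]
    linarith [le_abs_self (∫ q, A.indicator (fun q => |h q|) q ∂μ)]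
  have h5 : 0 ≤ᵐ[μ] fun q => A.indicator (fun q => |h q| - ε) q :=
    Eventually.of_forall fun q => Set.indicator_nonneg
      (fun x hx => le_of_lt (sub_pos.2 (show ε < |h x| from hx))) q
  have h6 := (integral_eq_zero_iff_of_nonneg_ae h5 hint).1
    (le_antisymm h4 (integral_nonneg_of_ae h5))
  filter_upwards [h6] with q hq
  by_contra hlt
  have hqA : q ∈ A := not_le.1 hlt
  rw [Set.indicator_of_mem hqA] at hq
  simp only [Pi.zero_apply] at hq
  exact hlt (by linarith)

lemma isProb_overlapLaw {ν : Measure Arr} (hν : IsGGArray ν) :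
    IsProbabilityMeasure (overlapLaw ν) :=
  haveI := hν.prob
  Measure.isProbabilityMeasure_map (measurable_rbar 0 1).aemeasurable

lemma integral_overlapLaw {ν : Measure Arr} {f : ℝ → ℝ} (hf : Measurable f) :
    ∫ q, f q ∂overlapLaw ν = ∫ ω, f (rbar 0 1 ω) ∂ν :=
  integral_map (measurable_rbar 0 1).aemeasurable hf.aestronglyMeasurable

/-- A quantitative approximation by continuous functions of the overlap implies `Good`. -/
lemma good_of_approx {ν : Measure Arr} {ρ : ℝ} (hν : IsTreeArray ν ρ) {J : ℕ} {G : Obs}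
    (c : ℕ → ℝ → ℝ) (hc : ∀ k, Continuous (c k)) (ε : ℕ → ℕ → ℝ)
    (hε : ∀ n, 2 ≤ n → Tendsto (ε n) atTop (𝓝 0))
    (happ : ∀ k n F, 2 ≤ n → TestFn ν n F →
      |∫ ω, F ω * c k (rbar 0 1 ω) ∂ν - EI ν n F J G| ≤ ε n k * ∫ ω, |F ω| ∂ν) :
    Good ν J G := by
  haveI := hν.prob
  haveI := isProb_overlapLaw hν.toIsGGArray
  set μ := overlapLaw ν with hμ
  have hcb : ∀ k, ∃ B, ∀ q ∈ Set.Icc (-ρ) ρ, |c k q| ≤ B := fun k =>
    isCompact_Icc.exists_bound_of_continuousOn (hc k).continuousOn |>.imp fun B hB q hq => hB q hq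
  choose B hB using hcb
  have hIcc : ∀ᵐ ω ∂ν, rbar 0 1 ω ∈ Set.Icc (-ρ) ρ := by
    filter_upwards [hν.rbar_le 0 1] with ω hω using ⟨(abs_le.1 hω).1, (abs_le.1 hω).2⟩
  have hμIcc : ∀ᵐ q ∂μ, q ∈ Set.Icc (-ρ) ρ :=
    (ae_map_iff (measurable_rbar 0 1).aemeasurable measurableSet_Icc).2 hIcc
  have hci : ∀ k, Integrable (c k) μ := fun k =>
    Integrable.mono' (integrable_const (B k)) (hc k).measurable.aestronglyMeasurable
      (hμIcc.mono fun q hq => hB k q hq)
  have hcau : ∀ k j, ∀ q ∈ μ.support, |c k q - c j q| ≤ ε 2 k + ε 2 j := by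
    intro k j
    have hae : ∀ᵐ q ∂μ, |c k q - c j q| ≤ ε 2 k + ε 2 j := by
      refine ae_abs_le_of_integral_le (h := fun q => c k q - c j q) ((hc k).measurable.sub (hc j).measurable)
        ((hci k).sub (hci j)) ?_
      intro g hg hgb
      have hF := testFn_rbar (ν := ν) hg zero_le_one hgb (le_refl 2)
      have h1 := happ k 2 _ le_rfl hF
      have h2 := happ j 2 _ le_rfl hF
      have hgi : ∀ m, Integrable (fun q => g q * c m q) μ := fun m =>
        (hci m).bdd_mul hg.aestronglyMeasurable (Eventually.of_forall fun q => hgb q)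
      rw [show (fun q => g q * (c k q - c j q)) = fun q => g q * c k q - g q * c j q by
          funext q; ring, integral_sub (hgi k) (hgi j),
        hμ, integral_overlapLaw (ν := ν) (f := fun q => g q * c k q) (hg.mul (hc k).measurable),
        integral_overlapLaw (ν := ν) (f := fun q => g q * c j q) (hg.mul (hc j).measurable),
        integral_overlapLaw (ν := ν) (f := fun q => |g q|) hg.abs]
      rw [abs_le] at h1 h2 ⊢
      constructor <;> nlinarith [h1.1, h1.2, h2.1, h2.2]
    intro q hq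
    have hclosed : IsClosed {q | |c k q - c j q| ≤ ε 2 k + ε 2 j} :=
      isClosed_le ((hc k).sub (hc j)).abs continuous_const
    exact Measure.support_subset_of_isClosed hclosed hae hq
  have hu : UniformCauchySeqOn c atTop μ.support := by
    rw [Metric.uniformCauchySeqOn_iff]
    intro η hη
    obtain ⟨N, hN⟩ := Metric.tendsto_atTop.1 (hε 2 le_rfl) (η / 2) (by positivity)
    refine ⟨N, fun k hk j hj q hq => ?_⟩
    rw [Real.dist_eq]
    have h1 := hN k hk
    have h2 := hN j hj
    rw [Real.dist_eq, sub_zero] at h1 h2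
    linarith [hcau k j q hq, le_abs_self (ε 2 k), le_abs_self (ε 2 j)]
  have hpt : ∀ q ∈ μ.support, ∃ L, Tendsto (fun k => c k q) atTop (𝓝 L) := fun q hq =>
    cauchySeq_tendsto_of_complete (hu.cauchySeq hq)
  choose! L hL using hpt
  have hunif : TendstoUniformlyOn c L atTop μ.support :=
    hu.tendstoUniformlyOn_of_tendsto fun q hq => hL q hq
  have hLc : ContinuousOn L μ.support :=
    hunif.continuousOn (Frequently.of_forall fun k => (hc k).continuousOn)
  obtain ⟨e, he⟩ := ContinuousMap.exists_restrict_eq Measure.isClosed_support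
    (⟨μ.support.restrict L, hLc.restrict⟩ : C(μ.support, ℝ))
  refine ⟨e, e.continuous, fun n F hn hF => ?_⟩
  obtain ⟨C, hC0, hC⟩ := hF.bdd
  have hsupp : ∀ᵐ ω ∂ν, rbar 0 1 ω ∈ μ.support :=
    (ae_map_iff (measurable_rbar 0 1).aemeasurable Measure.isClosed_support.measurableSet).1
      Measure.support_mem_ae
  have heL : ∀ q ∈ μ.support, e q = L q := fun q hq => by
    exact congrFun (congrArg DFunLike.coe he) ⟨q, hq⟩
  obtain ⟨N, hN⟩ := eventually_atTop.1 (Metric.tendstoUniformlyOn_iff.1 hunif 1 one_pos)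
  obtain ⟨Be, hBe⟩ := isCompact_Icc.exists_bound_of_continuousOn
    (s := Set.Icc (-ρ) ρ) e.continuous.continuousOn
  have hconv : Tendsto (fun k => ∫ ω, F ω * c k (rbar 0 1 ω) ∂ν) atTop
      (𝓝 (∫ ω, F ω * e (rbar 0 1 ω) ∂ν)) := by
    refine tendsto_integral_filter_of_dominated_convergence (fun _ => C * (Be + 1)) ?_ ?_
      (integrable_const _) ?_
    · exact Eventually.of_forall fun k =>
        (hF.meas.mul ((hc k).measurable.comp (measurable_rbar 0 1))).aestronglyMeasurable
    · filter_upwards [eventually_ge_atTop N] with k hk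
      filter_upwards [hC, hsupp, hIcc] with ω h1 h2 h3
      rw [Real.norm_eq_abs, abs_mul]
      refine mul_le_mul h1 ?_ (abs_nonneg _) hC0
      have h4 := hN k hk _ h2
      rw [Real.dist_eq, abs_sub_comm] at h4
      have h5 := hBe _ h3
      rw [Real.norm_eq_abs, heL _ h2] at h5
      linarith [abs_sub_abs_le_abs_sub (c k (rbar 0 1 ω)) (L (rbar 0 1 ω))]
    · filter_upwards [hsupp] with ω h2
      rw [heL _ h2]
      exact (hL _ h2).const_mul _
  have hconv2 : Tendsto (fun k => ∫ ω, F ω * c k (rbar 0 1 ω) ∂ν) atTop (𝓝 (EI ν n F J G)) := by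
    rw [tendsto_iff_norm_sub_tendsto_zero]
    refine squeeze_zero (fun k => norm_nonneg _) (fun k => happ k n F hn hF) ?_
    simpa using (hε n hn).mul_const (∫ ω, |F ω| ∂ν)
  exact tendsto_nhds_unique hconv2 hconv

end Vale.Agent.P168.Core
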