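import Vale.Agent.P168.Core.Meas

/-! Insertions of functions of the overlap matrix, by iterating the location of a new replica. -/

open MeasureTheory ProbabilityTheory Filter
open scoped BigOperators Topology

noncomputable section

namespace Vale.Agent.P168.Core

/-- The location identity for test functions and bounded functions of the overlap matrix. -/
lemma location' {ν : Measure Arr} {ρ : ℝ} (ht : IsTreeArray ν ρ) (s : ℕ) (G : Mat (s + 1) → ℝ)
    (hG : Measurable G) {B : ℝ} (hB : ∀ T, |G T| ≤ B) :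
    ∃ Lam : Mat s → ℝ, Measurable Lam ∧ (∃ C, ∀ T, |Lam T| ≤ C) ∧
      ∀ (n : ℕ) (u : Fin s → ℕ), 1 ≤ n → (∀ i, u i < n) → ∀ F : Arr → ℝ, TestFn ν n F →
        (∑ q ∈ Finset.range n, ∫ ω, F ω * G (tmat (Fin.snoc u q) ω) ∂ν) -
            (n : ℝ) * ∫ ω, F ω * G (tmat (Fin.snoc u n) ω) ∂ν =
          ∫ ω, F ω * Lam (tmat u ω) ∂ν := by
  have hB0 : 0 ≤ B := (abs_nonneg _).trans (hB fun _ _ => 0)
  have hBne : B + 1 ≠ 0 := by positivity
  obtain ⟨Lam, hLam, ⟨C, hC⟩, h⟩ := ht.location s (fun T => G T / (B + 1)) (hG.div_const _)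
    fun T => by
      rw [abs_div, abs_of_pos (by positivity : 0 < B + 1), div_le_one (by positivity)]
      linarith [hB T]
  refine ⟨fun T => (B + 1) * Lam T, hLam.const_mul _, ⟨(B + 1) * C, fun T => ?_⟩,
    fun n u hn hu F hF => ?_⟩
  · rw [abs_mul, abs_of_pos (by positivity : 0 < B + 1)]
    exact mul_le_mul_of_nonneg_left (hC T) (by positivity)
  obtain ⟨F', hF'm, hF'⟩ := hF.factor
  obtain ⟨D, hD0, hD⟩ := hF.bdd
  have hpos : 0 < D + 1 := by linarith
  set F₁ : RepData n → ℝ := fun z => max (-1) (min 1 (F' z / (D + 1)))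
  have hae : ∀ᵐ ω ∂ν, F₁ (repData n ω) = (D + 1)⁻¹ * F ω := by
    filter_upwards [hD] with ω hω
    have h1 := abs_le.1 hω
    simp only [F₁, hF']
    rw [min_eq_right (by rw [div_le_one hpos]; linarith), max_eq_right (by
      rw [le_div_iff₀ hpos]; linarith), div_eq_inv_mul]
  have hloc := h n u hn hu F₁ (measurable_const.max (measurable_const.min (hF'm.div_const _)))
    fun z => abs_le.2 ⟨le_max_left _ _, max_le (by norm_num) (min_le_left _ _)⟩
  have hconv : ∀ X : Arr → ℝ,
      ∫ ω, F₁ (repData n ω) * X ω ∂ν = (D + 1)⁻¹ * ∫ ω, F ω * X ω ∂ν := by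
    intro X
    rw [← integral_const_mul]
    exact integral_congr_ae (hae.mono fun ω hω => by
      show F₁ (repData n ω) * X ω = (D + 1)⁻¹ * (F ω * X ω)
      rw [hω, mul_assoc])
  have hdiv : ∀ v : Fin (s + 1) → ℕ, ∫ ω, F ω * (G (tmat v ω) / (B + 1)) ∂ν =
      (∫ ω, F ω * G (tmat v ω) ∂ν) / (B + 1) := by
    intro v
    rw [← integral_div]
    exact integral_congr_ae (Eventually.of_forall fun ω => by ring)
  simp only [hconv, hdiv, mul_left_comm _ (D + 1)⁻¹, ← Finset.mul_sum, ← mul_sub] at hloc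
  have h2 := mul_left_cancel₀ (inv_ne_zero hpos.ne') hloc
  rw [← Finset.sum_div] at h2
  have e : ∫ ω, F ω * ((B + 1) * Lam (tmat u ω)) ∂ν = (B + 1) * ∫ ω, F ω * Lam (tmat u ω) ∂ν := by
    rw [← integral_const_mul]
    exact integral_congr_ae (Eventually.of_forall fun ω => by ring)
  rw [e]
  field_simp at h2
  linarith

/-- The slots of a placement. -/
def ext {s : ℕ} (N : ℕ) (u : Fin s → ℕ) (l : List ℕ) : Fin N → ℕ :=
  fun x => (List.ofFn u ++ l).getD x 0

lemma ext_snoc {s : ℕ} (N : ℕ) (u : Fin s → ℕ) (q : ℕ) (l : List ℕ) :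
    ext N (Fin.snoc u q) l = ext N u (q :: l) := by
  funext x
  simp only [ext]
  rw [List.ofFn_succ', List.concat_eq_append]
  simp only [Fin.snoc_castSucc, Fin.snoc_last, List.append_assoc, List.singleton_append]

/-- Iterated location: insertions of a function of the overlap matrix. -/
lemma loc_iter {ν : Measure Arr} {ρ : ℝ} (ht : IsTreeArray ν ρ) {N : ℕ} (G : Mat N → ℝ)
    (hG : Measurable G) {B : ℝ} (hB : ∀ T, |G T| ≤ B) :
    ∀ J s, s + J = N → ∃ Lam : Mat s → ℝ, Measurable Lam ∧ (∃ C, ∀ T, |Lam T| ≤ C) ∧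
      ∀ (n : ℕ) (u : Fin s → ℕ), 1 ≤ n → (∀ i, u i < n) → ∀ F : Arr → ℝ, TestFn ν n F →
        lEI ν n F J (fun l ω => G (tmat (ext N u l) ω)) = ∫ ω, F ω * Lam (tmat u ω) ∂ν := by
  haveI := ht.prob
  intro J
  induction J with
  | zero =>
    intro s hs
    obtain rfl : s = N := by simpa using hs
    refine ⟨G, hG, ⟨B, hB⟩, fun n u _ _ F _ => ?_⟩
    unfold lEI
    simp only [op]
    refine integral_congr_ae (Eventually.of_forall fun ω => ?_)
    have e : ext s u [] = u := by
      funext x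
      simp only [ext, List.append_nil]
      rw [List.getD_eq_getElem _ _ (by simp), List.getElem_ofFn]
    simp only [e]
  | succ J ih =>
    intro s hs
    obtain ⟨Lam', hLam', ⟨C', hC'⟩, h'⟩ := ih (s + 1) (by omega)
    obtain ⟨Lam, hLam, hLamb, h⟩ := location' ht s Lam' hLam' hC'
    refine ⟨Lam, hLam, hLamb, fun n u hn hu F hF => ?_⟩
    obtain ⟨D, hD0, hD⟩ := hF.bdd
    have hint : ∀ l, Integrable (fun ω => F ω * G (tmat (ext N u l) ω)) ν := fun l =>
      integrable_of_bdd (C := D * B) (hF.meas.mul (hG.comp (measurable_tmat _))) (by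
        filter_upwards [hD] with ω hω
        rw [abs_mul]
        exact mul_le_mul hω (hB _) (abs_nonneg _) hD0)
    rw [lEI_succ' hint, ← h n u hn hu F hF]
    congr 1
    · refine Finset.sum_congr rfl fun q hq => ?_
      rw [← h' n (Fin.snoc u q) hn (fun i => ?_) F hF]
      · simp only [ext_snoc]
      · induction i using Fin.lastCases with
        | last => simpa using Finset.mem_range.1 hq
        | cast i => simpa using hu i
    · congr 1
      rw [← h' (n + 1) (Fin.snoc u n) (by omega) (fun i => ?_) F (hF.mono (Nat.le_succ n))]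
      · simp only [ext_snoc]
      · induction i using Fin.lastCases with
        | last => simp
        | cast i => simpa using Nat.lt_succ_of_lt (hu i)

lemma ext_pins {d : ℕ} (l : List ℕ) :
    ext (2 + d) (idRep 2) l = fun x : Fin (2 + d) => pl l x.val := by
  funext x
  show (List.ofFn (idRep 2) ++ l).getD x.val 0 = ((0 : ℕ) :: 1 :: l).getD x.val 0
  simp [List.ofFn_succ, idRep]

/-- The overlap matrix of two replicas with overlap `q`. -/
def pinMat (ρ q : ℝ) : Mat 2 := fun a b => if a = b then ρ else q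

lemma measurable_pinMat (ρ : ℝ) : Measurable (pinMat ρ) := by
  refine measurable_pi_lambda _ fun a => measurable_pi_lambda _ fun b => ?_
  by_cases h : a = b <;> simp only [pinMat, h, if_true, if_false] <;> fun_prop

lemma tmat_pins {ν : Measure Arr} {ρ : ℝ} (ht : IsTreeArray ν ρ) :
    ∀ᵐ ω ∂ν, tmat (idRep 2) ω = pinMat ρ (rbar 0 1 ω) := by
  filter_upwards [ht.rbar_diag 0, ht.rbar_diag 1, ht.rbar_symm 1 0] with ω h0 h1 h2
  funext a b
  fin_cases a <;> fin_cases b <;> simp [tmat, idRep, pinMat, h0, h1, h2]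

lemma integral_kernel_fun {ν : Measure Arr} {ρ : ℝ} (ht : IsTreeArray ν ρ) {d : ℕ}
    {κ : Kernel ℝ (Mat (2 + d))} [IsMarkovKernel κ]
    (hκ : ν.map (fun ω => (rbar 0 1 ω, tmat (idRep (2 + d)) ω)) = overlapLaw ν ⊗ₘ κ)
    {g : ℝ → ℝ} (hg : Measurable g) {B : ℝ} (hgb : ∀ q, |g q| ≤ B) {A : Set (Mat (2 + d))}
    (hA : MeasurableSet A) :
    ∫ ω, g (rbar 0 1 ω) * A.indicator 1 (tmat (idRep (2 + d)) ω) ∂ν =
      ∫ ω, g (rbar 0 1 ω) * (κ (rbar 0 1 ω)).real A ∂ν := by
  haveI := ht.prob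
  haveI := isProb_overlapLaw ht.toIsGGArray
  have hm : Measurable fun z : ℝ × Mat (2 + d) => g z.1 * A.indicator (1 : Mat (2 + d) → ℝ) z.2 :=
    (hg.comp measurable_fst).mul ((measurable_one.indicator hA).comp measurable_snd)
  have hi : Integrable (fun z : ℝ × Mat (2 + d) => g z.1 * A.indicator (1 : Mat (2 + d) → ℝ) z.2)
      (overlapLaw ν ⊗ₘ κ) := by
    refine Integrable.mono' (integrable_const B) hm.aestronglyMeasurable
      (Eventually.of_forall fun z => ?_)
    rw [Real.norm_eq_abs, abs_mul]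
    exact (mul_le_mul (hgb _) (abs_indicator_one_le A _) (abs_nonneg _)
      ((abs_nonneg _).trans (hgb z.1))).trans_eq (mul_one B)
  have hmp : Measurable fun ω => (rbar 0 1 ω, tmat (idRep (2 + d)) ω) :=
    (measurable_rbar 0 1).prodMk (measurable_tmat _)
  have h1 : ∫ ω, g (rbar 0 1 ω) * A.indicator 1 (tmat (idRep (2 + d)) ω) ∂ν =
      ∫ z, g z.1 * A.indicator 1 z.2 ∂(overlapLaw ν ⊗ₘ κ) := by
    rw [← hκ, integral_map hmp.aemeasurable hm.aestronglyMeasurable]
  rw [h1, Measure.integral_compProd hi,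
    ← integral_overlapLaw (f := fun q => g q * (κ q).real A)
      (hg.mul (κ.measurable_coe hA).ennreal_toReal)]
  refine integral_congr_ae (Eventually.of_forall fun q => ?_)
  show ∫ T, g q * A.indicator 1 T ∂κ q = _
  rw [integral_const_mul, integral_indicator_one hA]

/-- Insertions of an indicator of overlap matrices are given by the kernel. -/
theorem lEI_kernel {ν : Measure Arr} {ρ : ℝ} (ht : IsTreeArray ν ρ) {d : ℕ}
    {κ : Kernel ℝ (Mat (2 + d))} [IsMarkovKernel κ]
    (hκ : ν.map (fun ω => (rbar 0 1 ω, tmat (idRep (2 + d)) ω)) = overlapLaw ν ⊗ₘ κ)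
    {B : Set (Mat (2 + d))} (hB : MeasurableSet B) (hBρ : ∀ T ∈ B, ∀ i j, i ≠ j → T i j < ρ)
    {n : ℕ} (hn : 2 ≤ n) {F : Arr → ℝ} (hF : TestFn ν n F) :
    lEI ν n F d (fun l ω => B.indicator 1 (tmat (fun x : Fin (2 + d) => pl l x.val) ω)) =
      fwgt d 2 * ∫ ω, F ω * (κ (rbar 0 1 ω)).real B ∂ν := by
  haveI := ht.prob
  haveI := isProb_overlapLaw ht.toIsGGArray
  obtain ⟨Lam, hLam, ⟨C, hC⟩, h⟩ := loc_iter ht (B.indicator (1 : Mat (2 + d) → ℝ))
    (measurable_one.indicator hB) (abs_indicator_one_le B) d 2 rfl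
  have h' : ∀ m F', 2 ≤ m → TestFn ν m F' →
      lEI ν m F' d (fun l ω => B.indicator 1 (tmat (fun x : Fin (2 + d) => pl l x.val) ω)) =
        ∫ ω, F' ω * Lam (pinMat ρ (rbar 0 1 ω)) ∂ν := by
    intro m F' hm hF'
    have h1 := h m (idRep 2) (by omega) (fun i => lt_of_lt_of_le i.isLt hm) F' hF'
    simp only [ext_pins] at h1
    rw [h1]
    exact integral_congr_ae ((tmat_pins ht).mono fun ω hω => by
      show F' ω * Lam _ = F' ω * Lam _
      rw [hω])
  have hLm : Measurable fun q => Lam (pinMat ρ q) := hLam.comp (measurable_pinMat ρ)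
  have hκm : Measurable fun q => (κ q).real B := (κ.measurable_coe hB).ennreal_toReal
  set f : ℝ → ℝ := fun q => Lam (pinMat ρ q) - fwgt d 2 * (κ q).real B
  have hfm : Measurable f := hLm.sub (hκm.const_mul _)
  have hsplit : ∀ {m : ℕ} {F' : Arr → ℝ}, TestFn ν m F' →
      ∫ ω, F' ω * f (rbar 0 1 ω) ∂ν = ∫ ω, F' ω * Lam (pinMat ρ (rbar 0 1 ω)) ∂ν -
        fwgt d 2 * ∫ ω, F' ω * (κ (rbar 0 1 ω)).real B ∂ν := by
    intro m F' hF'
    obtain ⟨D, hD0, hD⟩ := hF'.bdd
    have i1 : Integrable (fun ω => F' ω * Lam (pinMat ρ (rbar 0 1 ω))) ν :=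
      integrable_of_bdd (C := D * C) (hF'.meas.mul (hLm.comp (measurable_rbar 0 1))) (by
        filter_upwards [hD] with ω hω
        rw [abs_mul]
        exact mul_le_mul hω (hC _) (abs_nonneg _) hD0)
    have i2 : Integrable (fun ω => F' ω * (κ (rbar 0 1 ω)).real B) ν :=
      integrable_of_bdd (C := D) (hF'.meas.mul (hκm.comp (measurable_rbar 0 1)))
        (ae_abs_mul_le hD0 hD (Eventually.of_forall fun ω => by
          rw [abs_of_nonneg measureReal_nonneg]; exact measureReal_le_one))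
    rw [← integral_const_mul, ← integral_sub i1 (i2.const_mul _)]
    exact integral_congr_ae (Eventually.of_forall fun ω => by simp only [f]; ring)
  have hzero : ∀ᵐ q ∂overlapLaw ν, |f q| ≤ 0 := by
    refine ae_abs_le_of_integral_le hfm (Integrable.mono' (integrable_const (C + |fwgt d 2|))
      hfm.aestronglyMeasurable (Eventually.of_forall fun q => ?_)) fun g hg hgb => ?_
    · rw [Real.norm_eq_abs]
      refine (abs_sub _ _).trans (add_le_add (hC _) ?_)
      rw [abs_mul, abs_of_nonneg (measureReal_nonneg : 0 ≤ (κ q).real B)]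
      exact mul_le_of_le_one_right (abs_nonneg _) measureReal_le_one
    · rw [zero_mul, abs_nonpos_iff, integral_overlapLaw (f := fun q => g q * f q) (hg.mul hfm),
        hsplit (testFn_rbar hg zero_le_one hgb (le_refl 2)),
        ← h' 2 _ le_rfl (testFn_rbar hg zero_le_one hgb (le_refl 2)), sub_eq_zero]
      rw [← integral_kernel_fun ht hκ hg hgb hB]
      unfold lEI
      rw [← integral_const_mul]
      have hm : ∀ᵐ ω ∂ν, ∀ l : List ℕ, l.length = d → ¬(l.Nodup ∧ ∀ x ∈ l, 2 ≤ x) →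
          B.indicator (1 : Mat (2 + d) → ℝ) (tmat (fun x : Fin (2 + d) => pl l x.val) ω) = 0 := by
        rw [ae_all_iff]
        intro l
        by_cases hl : l.length = d ∧ ¬(l.Nodup ∧ ∀ x ∈ l, 2 ≤ x)
        · obtain ⟨i, j, hij, he⟩ := exists_merge hl.1 hl.2
          filter_upwards [ht.rbar_diag (pl l i.val)] with ω hω _ _
          refine indicator_merge hBρ _ ⟨i, j, hij, ?_⟩
          show ρ ≤ rbar (pl l i.val) (pl l j.val) ω
          rw [← he, hω]
        · exact Eventually.of_forall fun ω h1 h2 => absurd ⟨h1, h2⟩ hl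
      refine integral_congr_ae ?_
      filter_upwards [hm] with ω hω
      rw [op_fresh fun l hl _ hn' => hω l hl hn']
      have e : (fun x : Fin (2 + d) => pl (List.range' 2 d) x.val) = idRep (2 + d) := by
        funext x; exact pl_range' d x.isLt
      rw [e]
      ring
  rw [h' n F hn hF]
  have := hsplit hF
  have h0 : ∫ ω, F ω * f (rbar 0 1 ω) ∂ν = 0 := by
    refine integral_eq_zero_of_ae ?_
    filter_upwards [(ae_map_iff (measurable_rbar 0 1).aemeasurable
      (measurableSet_le hfm.abs measurable_const)).1 hzero] with ω hω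
    rw [Pi.zero_apply, abs_nonpos_iff.1 hω, mul_zero]
  rw [h0] at this
  linarith

end Vale.Agent.P168.Core
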