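import Vale.Agent.P168.Core.VarId

/-! Module 8: gadget algebra. -/

namespace Vale.Agent.P168.Core

/-- Module 8. -/
theorem coreStmt : CoreStmt := fun _ _ hg ht =>
  { ht with
    core_cont := fun d φ U hφ hv => core_cont hg ht d φ U hφ hv
    var_id := fun d => var_id hg ht d }

end Vale.Agent.P168.Core
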