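import Vale.Agent.P168.Core.CoreCont

/-! Insertions of an indicator of overlap matrices times the multi-overlap of all slots. -/

open MeasureTheory Filter
open scoped BigOperators Topology BoundedContinuousFunction

noncomputable section

namespace Vale.Agent.P168.Core

/-- The coefficient of one placement in `op`. -/
def opc {J : ℕ} (n : ℕ) (f : Fin J → Fin (n + J)) : ℝ :=
  op J n fun l => if l = List.ofFn (fun i => (f i).val) then 1 else 0

lemma op_eq_sum (J n : ℕ) (H : List ℕ → ℝ) :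
    op J n H = ∑ f : Fin J → Fin (n + J), opc n f * H (List.ofFn fun i => (f i).val) := by
  have e : op J n H = op J n fun l => ∑ f : Fin J → Fin (n + J),
      H (List.ofFn fun i => (f i).val) * if l = List.ofFn (fun i => (f i).val) then 1 else 0 := by
    refine op_congr fun l hl hx => ?_
    set f0 : Fin J → Fin (n + J) := fun i =>
      ⟨l[i.val]'(by rw [hl]; exact i.isLt), hx _ (List.getElem_mem _)⟩
    have hl0 : List.ofFn (fun i => (f0 i).val) = l := by
      refine List.ext_getElem (by simp [hl]) fun k h1 h2 => ?_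
      simp [f0]
    rw [Finset.sum_eq_single f0 (fun f _ hne => ?_) (fun h => absurd (Finset.mem_univ _) h)]
    · rw [if_pos hl0.symm, mul_one, hl0]
    · rw [if_neg fun he => hne ?_, mul_zero]
      have := List.ofFn_inj.1 (hl0.trans he)
      funext i
      exact Fin.ext (congrFun this i).symm
  rw [e, op_sum]
  refine Finset.sum_congr rfl fun f _ => ?_
  rw [op_smul, opc, mul_comm]

lemma lEI_eq_sum {ν : Measure Arr} {n J : ℕ} {F : Arr → ℝ} {H : List ℕ → Arr → ℝ}
    (h : ∀ l, Integrable (fun ω => F ω * H l ω) ν) :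
    lEI ν n F J H = ∑ f : Fin J → Fin (n + J),
      opc n f * ∫ ω, F ω * H (List.ofFn fun i => (f i).val) ω ∂ν := by
  unfold lEI
  simp only [op_eq_sum J n, Finset.mul_sum, mul_left_comm (F _)]
  rw [integral_finsetSum _ fun f _ => (h _).const_mul _]
  simp only [integral_const_mul]

/-- The list of all slots. -/
def rlist (d : ℕ) : List ℕ := List.ofFn (idRep (2 + d))

lemma mObs_rlist (d : ℕ) (φ : Mat (2 + d) → ℝ) (w : ℕ → ℕ) (ω : Arr) :
    mObs d φ [rlist d] [] w ω = φ (tmat (fun i : Fin (2 + d) => w i.val) ω) *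
      rset (List.ofFn fun i : Fin (2 + d) => w i.val) ω := by
  simp only [mObs, pval, rlist, List.map_cons, List.map_nil, List.prod_cons, List.prod_nil,
    mul_one, List.map_ofFn]
  rfl

lemma mem_rlist {d : ℕ} : ∀ e ∈ [rlist d], ∀ x ∈ e, x < 2 + d := by
  intro e he x hx
  rw [List.mem_singleton.1 he, rlist, List.mem_ofFn] at hx
  obtain ⟨i, rfl⟩ := hx
  exact i.isLt

lemma abs_indicator_one_le {α : Type*} (I : Set α) (x : α) : |I.indicator (1 : α → ℝ) x| ≤ 1 := by
  by_cases h : x ∈ I <;> simp [h]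

lemma indicator_merge {ρ : ℝ} {n : ℕ} {I : Set (Mat n)}
    (hI : ∀ T ∈ I, ∀ i j, i ≠ j → T i j < ρ) (T : Mat n) (h : ∃ i j, i ≠ j ∧ ρ ≤ T i j) :
    I.indicator (1 : Mat n → ℝ) T = 0 := by
  obtain ⟨i, j, hij, hT⟩ := h
  exact Set.indicator_of_notMem (fun hm => absurd hT (not_le.2 (hI T hm i j hij))) _

lemma isObs_ind {ν : Measure Arr} (hν : IsGGArray ν) {d : ℕ} {I : Set (Mat (2 + d))}
    (hI : MeasurableSet I) : IsObs ν d (mObs d (I.indicator 1) [rlist d] []) :=
  isObs_mObs hν (measurable_one.indicator hI) zero_le_one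
    (fun u => Eventually.of_forall fun ω => abs_indicator_one_le I _) mem_rlist (by simp)

lemma EI_two_ind {ν : Measure Arr} {ρ : ℝ} (ht : IsTreeArray ν ρ) {d : ℕ}
    {I : Set (Mat (2 + d))} (hI : MeasurableSet I) (hIρ : ∀ T ∈ I, ∀ i j, i ≠ j → T i j < ρ)
    {c : ℝ → ℝ} (hcI : ∀ g : ℝ → ℝ, Measurable g → (∀ q, |g q| ≤ 1) →
      ∫ ω, g (rbar 0 1 ω) * (I.indicator 1 (tmat (idRep (2 + d)) ω) *
          rset (List.ofFn (idRep (2 + d))) ω) ∂ν = ∫ ω, g (rbar 0 1 ω) * c (rbar 0 1 ω) ∂ν)
    {g : ℝ → ℝ} (hg : Measurable g) (hgb : ∀ q, |g q| ≤ 1) :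
    EI ν 2 (fun ω => g (rbar 0 1 ω)) d (mObs d (I.indicator 1) [rlist d] []) =
      fwgt d 2 * ∫ ω, g (rbar 0 1 ω) * c (rbar 0 1 ω) ∂ν := by
  rw [EI_two ht (isObs_ind ht.toIsGGArray hI)
    (fun u hu => ae_mObs_merge ht (indicator_merge hIρ) _ _ hu) hg hgb, ← hcI g hg hgb]
  congr 1
  refine integral_congr_ae (Eventually.of_forall fun ω => ?_)
  simp only [mObs_rlist]
  rfl

/-- Insertions of the indicator observable are given by `c`, at every level. -/
theorem EI_ind {ν : Measure Arr} {ρ : ℝ} (hg : IsGadgetArray ν) (ht : IsTreeArray ν ρ) {d : ℕ}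
    {I : Set (Mat (2 + d))} (hI : MeasurableSet I) (hIρ : ∀ T ∈ I, ∀ i j, i ≠ j → T i j < ρ)
    {c : ℝ → ℝ} (hc : Measurable c) (hcb : ∀ q, |c q| ≤ 1)
    (hcI : ∀ g : ℝ → ℝ, Measurable g → (∀ q, |g q| ≤ 1) →
      ∫ ω, g (rbar 0 1 ω) * (I.indicator 1 (tmat (idRep (2 + d)) ω) *
          rset (List.ofFn (idRep (2 + d))) ω) ∂ν = ∫ ω, g (rbar 0 1 ω) * c (rbar 0 1 ω) ∂ν)
    {n : ℕ} (hn : 2 ≤ n) {F : Arr → ℝ} (hF : TestFn ν n F) :
    EI ν n F d (mObs d (I.indicator 1) [rlist d] []) =
      fwgt d 2 * ∫ ω, F ω * c (rbar 0 1 ω) ∂ν := by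
  haveI := ht.prob
  obtain ⟨C, hC0, hC⟩ := hF.bdd
  have hXobs := isObs_ind ht.toIsGGArray (d := d) hI
  have hXb : BddObs ν (mObs d (I.indicator 1) [rlist d] []) :=
    ⟨hXobs.meas, hXobs.bdd.choose, hXobs.bdd.choose_spec.2⟩
  have hK : 0 ≤ C * wgt d n + C * wgt d 2 :=
    add_nonneg (mul_nonneg hC0 (wgt_nonneg _ _)) (mul_nonneg hC0 (wgt_nonneg _ _))
  suffices h : ∀ δ : ℝ, 0 < δ → |EI ν n F d (mObs d (I.indicator 1) [rlist d] []) -
      fwgt d 2 * ∫ ω, F ω * c (rbar 0 1 ω) ∂ν| ≤ (C * wgt d n + C * wgt d 2) * δ by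
    refine eq_of_abs_sub_nonpos (le_of_forall_pos_le_add fun η hη => ?_)
    refine (h (η / (C * wgt d n + C * wgt d 2 + 1)) (by positivity)).trans ?_
    rw [zero_add, mul_div_assoc']
    rw [div_le_iff₀ (by positivity)]
    nlinarith
  intro δ hδ
  set μ : Measure (Mat (2 + d)) :=
    ∑ u : Fin (2 + d) → Fin (n + d), ν.map (tmat fun i => (u i).val) with hμ
  haveI : IsFiniteMeasure μ := by rw [hμ]; infer_instance
  obtain ⟨f, hf, -⟩ := ((integrable_const (1 : ℝ)).indicator hI :
    Integrable (I.indicator fun _ => (1 : ℝ)) μ).exists_boundedContinuous_integral_sub_le hδ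
  set φ : Mat (2 + d) → ℝ := fun T => max (-1) (min 1 (f T)) with hφdef
  have hφ : Continuous φ := by fun_prop
  have hφd : ∀ T, |φ T - I.indicator 1 T| ≤ |I.indicator (fun _ => (1 : ℝ)) T - f T| := by
    intro T
    rw [abs_sub_comm (I.indicator (fun _ => (1 : ℝ)) T)]
    by_cases hT : T ∈ I
    · simp only [hφdef, Set.indicator_of_mem hT, Pi.one_apply]
      rw [abs_le]
      constructor
      · rcases le_total (f T) 1 with h | h
        · rw [min_eq_right h, abs_of_nonpos (by linarith)]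
          linarith [le_max_right (-1) (f T)]
        · rw [min_eq_left h]; norm_num
      · linarith [abs_nonneg (f T - 1), max_le (by norm_num : (-1 : ℝ) ≤ 1) (min_le_left 1 (f T))]
    · simp only [hφdef, Set.indicator_of_notMem hT, sub_zero]
      rw [abs_le]
      constructor
      · rcases le_total (f T) 0 with h | h
        · rw [abs_of_nonpos h, min_eq_right (by linarith)]
          linarith [le_max_right (-1) (f T)]
        · rw [abs_of_nonneg h]
          linarith [le_max_right (-1) (min 1 (f T)), le_min (zero_le_one' ℝ) h]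
      · rcases le_total (f T) 0 with h | h
        · linarith [max_le (by norm_num : (-1 : ℝ) ≤ 0) ((min_le_right 1 (f T)).trans h),
            abs_nonneg (f T)]
        · rw [abs_of_nonneg h]
          exact max_le (by linarith) (min_le_right _ _)
  set S : Arr → ℝ := fun ω => ∑ u : Fin (2 + d) → Fin (n + d),
    |φ (tmat (fun i => (u i).val) ω) - I.indicator 1 (tmat (fun i => (u i).val) ω)|
  have hmeasd : Measurable fun T => |φ T - I.indicator 1 T| :=
    (hφ.measurable.sub (measurable_one.indicator hI)).abs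
  have hbd2 : ∀ T, |(|φ T - I.indicator 1 T|)| ≤ 2 := fun T => by
    have h1 : |φ T| ≤ 1 := abs_le.2 ⟨le_max_left _ _, max_le (by norm_num) (min_le_left _ _)⟩
    rw [abs_abs]
    exact (abs_sub _ _).trans (by linarith [abs_indicator_one_le I T])
  have hSi : ∀ u : Fin (2 + d) → Fin (n + d), Integrable (fun ω =>
      |φ (tmat (fun i => (u i).val) ω) - I.indicator 1 (tmat (fun i => (u i).val) ω)|) ν := fun u =>
    integrable_of_bdd (hmeasd.comp (measurable_tmat _)) (Eventually.of_forall fun ω => hbd2 _)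
  have hSint : Integrable S ν := integrable_finsetSum _ fun u _ => hSi u
  have hS : ∫ ω, S ω ∂ν ≤ δ := by
    refine le_trans ?_ hf
    have e : ∫ ω, S ω ∂ν = ∫ T, |φ T - I.indicator 1 T| ∂μ := by
      rw [hμ, integral_finsetSum_measure fun u _ => Integrable.mono' (integrable_const 2)
        hmeasd.aestronglyMeasurable (Eventually.of_forall hbd2), integral_finsetSum _ fun u _ => hSi u]
      refine Finset.sum_congr rfl fun u _ => ?_
      rw [integral_map (measurable_tmat _).aemeasurable hmeasd.aestronglyMeasurable]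
    rw [e]
    refine integral_mono_of_nonneg (Eventually.of_forall fun _ => abs_nonneg _) ?_
      (Eventually.of_forall fun T => (hφd T).trans (le_of_eq (Real.norm_eq_abs _).symm))
    exact (((integrable_const (1 : ℝ)).indicator hI).sub (f.integrable μ)).norm
  obtain ⟨cφ, hcφ, hcφ2⟩ := goodMul_continuous hg ht (d := d) hφ [rlist d] [] mem_rlist (by simp)
  have hY := bddObs_mObs ht hφ [rlist d] []
  have hclose : ∀ m F' C', 2 ≤ m → m ≤ n → TestFn ν m F' → 0 ≤ C' → (∀ᵐ ω ∂ν, |F' ω| ≤ C') →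
      |EI ν m F' d (mObs d (I.indicator 1) [rlist d] []) - EI ν m F' d (mObs d φ [rlist d] [])| ≤
        C' * wgt d m * δ := by
    intro m F' C' hm hmn hF' hC'0 hC'
    unfold EI lEI
    rw [← integral_sub (hXb.integrable_ins hF') (hY.integrable_ins hF')]
    refine abs_integral_le_integral_abs.trans ((integral_mono_of_nonneg
      (g := fun ω => C' * (wgt d m * S ω)) (Eventually.of_forall fun _ => abs_nonneg _)
      ((hSint.const_mul _).const_mul _) ?_).trans ?_)
    · filter_upwards [hC', abs_pval_le ht.toIsGGArray [rlist d] []] with ω h1 h2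
      show |F' ω * op d m _ - F' ω * op d m _| ≤ _
      rw [← mul_sub, ← op_sub, abs_mul]
      refine mul_le_mul h1 (abs_op_le fun l hl hx => ?_) (abs_nonneg _) hC'0
      have hw : ∀ w : ℕ → ℕ, (∀ i < 2 + d, w i < n + d) →
          |mObs d (I.indicator 1) [rlist d] [] w ω - mObs d φ [rlist d] [] w ω| ≤ S ω := by
        intro w hw
        rw [mObs, mObs, ← sub_mul, abs_mul, abs_sub_comm]
        refine (mul_le_of_le_one_right (abs_nonneg _) (h2 w)).trans ?_
        exact Finset.single_le_sum (f := fun u : Fin (2 + d) → Fin (n + d) =>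
          |φ (tmat (fun i => (u i).val) ω) - I.indicator 1 (tmat (fun i => (u i).val) ω)|)
          (fun u _ => abs_nonneg _)
          (Finset.mem_univ fun i : Fin (2 + d) => (⟨w i.val, hw _ i.isLt⟩ : Fin (n + d)))
      have hp : ∀ i, pl l i < n + d := fun i =>
        lt_of_lt_of_le (pl_lt hm (Nat.le_add_right m d) hx i) (by omega)
      have k1 := abs_le.1 (hw (pl l) fun i _ => hp i)
      have k2 := abs_le.1 (hw (fun x => pl l (Equiv.swap 0 1 x)) fun i _ => hp _)
      simp only [ofObs, sym]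
      rw [abs_le]
      constructor <;> linarith [k1.1, k1.2, k2.1, k2.2]
    · rw [integral_const_mul, integral_const_mul, ← mul_assoc]
      exact mul_le_mul_of_nonneg_left hS (mul_nonneg hC'0 (wgt_nonneg _ _))
  set h : ℝ → ℝ := fun q => cφ q - fwgt d 2 * c q
  have hhm : Measurable h := hcφ.measurable.sub (hc.const_mul _)
  have hhi : ∀ {m : ℕ} {F' : Arr → ℝ}, TestFn ν m F' →
      ∫ ω, F' ω * h (rbar 0 1 ω) ∂ν = ∫ ω, F' ω * cφ (rbar 0 1 ω) ∂ν -
        fwgt d 2 * ∫ ω, F' ω * c (rbar 0 1 ω) ∂ν ∧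
      Integrable (fun ω => F' ω * h (rbar 0 1 ω)) ν := by
    intro m F' hF'
    obtain ⟨C', hC'0, hC'⟩ := hF'.bdd
    have i1 := integrable_mul_cont ht hF' hcφ 0 1
    have i2 : Integrable (fun ω => fwgt d 2 * (F' ω * c (rbar 0 1 ω))) ν :=
      (integrable_of_bdd (C := C') (hF'.meas.mul (hc.comp (measurable_rbar 0 1)))
        (ae_abs_mul_le hC'0 hC' (Eventually.of_forall fun ω => hcb _))).const_mul _
    have e : (fun ω => F' ω * h (rbar 0 1 ω)) =
        fun ω => F' ω * cφ (rbar 0 1 ω) - fwgt d 2 * (F' ω * c (rbar 0 1 ω)) := by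
      funext ω; simp only [h]; ring
    rw [e, integral_sub i1 i2, integral_const_mul]
    exact ⟨rfl, i1.sub i2⟩
  have hL1 : ∫ ω, |h (rbar 0 1 ω)| ∂ν ≤ wgt d 2 * δ := by
    set g : ℝ → ℝ := fun q => if 0 ≤ h q then 1 else -1
    have hgm : Measurable g :=
      Measurable.ite (measurableSet_le measurable_const hhm) measurable_const measurable_const
    have hgb : ∀ q, |g q| ≤ 1 := fun q => by simp only [g]; split_ifs <;> simp
    have hFg := testFn_rbar (ν := ν) hgm zero_le_one hgb (le_refl 2)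
    have e : ∀ q, g q * h q = |h q| := fun q => by
      simp only [g]
      split_ifs with h0
      · rw [one_mul, abs_of_nonneg h0]
      · rw [abs_of_neg (not_le.1 h0)]; ring
    have h1 := hclose 2 _ 1 le_rfl hn hFg zero_le_one (Eventually.of_forall fun ω => hgb _)
    rw [EI_two_ind ht hI hIρ hcI hgm hgb, hcφ2 2 _ le_rfl hFg, one_mul, abs_sub_comm,
      ← (hhi hFg).1] at h1
    simp only [e] at h1
    exact (le_abs_self _).trans h1
  have h1 := hclose n F C hn le_rfl hF hC0 hC
  rw [hcφ2 n F hn hF] at h1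
  have h2 : |∫ ω, F ω * cφ (rbar 0 1 ω) ∂ν - fwgt d 2 * ∫ ω, F ω * c (rbar 0 1 ω) ∂ν| ≤
      C * (wgt d 2 * δ) := by
    rw [← (hhi hF).1]
    refine le_trans (abs_integral_le_integral_abs.trans
      (integral_mono_of_nonneg (g := fun ω => C * |h (rbar 0 1 ω)|)
        (Eventually.of_forall fun _ => abs_nonneg _) ?_
        (hC.mono fun ω hω => ?_))) ?_
    · refine Integrable.const_mul ?_ C
      have := (hhi (testFn_rbar (ν := ν) (g := fun _ => (1 : ℝ)) measurable_const zero_le_one
        (fun _ => le_of_eq abs_one) (le_refl 2))).2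
      simpa using this.abs
    · show |F ω * h (rbar 0 1 ω)| ≤ C * |h (rbar 0 1 ω)|
      rw [abs_mul]
      exact mul_le_mul_of_nonneg_right hω (abs_nonneg _)
    · rw [integral_const_mul]
      exact mul_le_mul_of_nonneg_left hL1 hC0
  refine (abs_sub_le _ _ _).trans ((add_le_add h1 h2).trans (le_of_eq ?_))
  ring

end Vale.Agent.P168.Core
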