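import Vale.Agent.P168.Core.Base

/-! Monomials with kernel factors are good: nesting of gadget identities. -/

open MeasureTheory Filter
open scoped BigOperators Topology

noncomputable section

namespace Vale.Agent.P168.Core

lemma integrable_mul_op' {ν : Measure Arr} {F : Arr → ℝ} {J n : ℕ} {H : List ℕ → Arr → ℝ}
    (h : ∀ l, Integrable (fun ω => F ω * H l ω) ν) :
    Integrable (fun ω => F ω * op J n fun l => H l ω) ν := by
  induction J generalizing n H with
  | zero => exact h []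
  | succ J ih =>
    refine ((integrable_finsetSum (Finset.range n) fun q _ => ih (n := n) fun l => h (q :: l)).sub
      ((ih (n := n + 1) fun l => h (n :: l)).const_mul (n : ℝ))).congr (Eventually.of_forall fun ω => ?_)
    simp only [Pi.sub_apply, op, mul_sub, Finset.mul_sum]
    ring

lemma lEI_succ' {ν : Measure Arr} {n J : ℕ} {F : Arr → ℝ} {H : List ℕ → Arr → ℝ}
    (h : ∀ l, Integrable (fun ω => F ω * H l ω) ν) :
    lEI ν n F (J + 1) H = (∑ q ∈ Finset.range n, lEI ν n F J fun l => H (q :: l)) -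
      (n : ℝ) * lEI ν (n + 1) F J fun l => H (n :: l) := by
  unfold lEI
  have e : ∀ ω, F ω * op (J + 1) n (fun l => H l ω) =
      (∑ q ∈ Finset.range n, F ω * op J n fun l => H (q :: l) ω) -
        (n : ℝ) * (F ω * op J (n + 1) fun l => H (n :: l) ω) := by
    intro ω
    simp only [op]
    rw [mul_sub, Finset.mul_sum]
    ring
  simp only [e]
  rw [integral_sub (integrable_finsetSum _ fun q _ => integrable_mul_op' fun l => h _)
      ((integrable_mul_op' fun l => h _).const_mul _),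
    integral_finsetSum _ (fun q _ => integrable_mul_op' fun l => h _), integral_const_mul]

lemma lEI_sum {ν : Measure Arr} {n J : ℕ} {F : Arr → ℝ} {ι : Type*} (s : Finset ι) (c : ι → ℝ)
    (H : ι → List ℕ → Arr → ℝ) (h : ∀ i ∈ s, ∀ l, Integrable (fun ω => F ω * H i l ω) ν) :
    lEI ν n F J (fun l ω => ∑ i ∈ s, c i * H i l ω) = ∑ i ∈ s, c i * lEI ν n F J (H i) := by
  unfold lEI
  simp only [op_sum, op_smul, Finset.mul_sum, mul_left_comm _ (c _)]
  rw [integral_finsetSum _ fun i hi => (integrable_mul_op' (h i hi)).const_mul (c i)]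
  simp only [integral_const_mul]

lemma pl_lt {n : ℕ} {l : List ℕ} {N : ℕ} (hn : 2 ≤ n) (hN : n ≤ N) (hl : ∀ y ∈ l, y < N) (x : ℕ) :
    pl l x < N := by
  rcases x with _ | _ | x
  · show 0 < N; omega
  · show 1 < N; omega
  · show l.getD x 0 < N
    rcases Nat.lt_or_ge x l.length with h | h
    · rw [List.getD_eq_getElem _ _ h]; exact hl _ (List.getElem_mem h)
    · rw [List.getD_eq_default _ _ h]; omega

lemma pl_append_left {l ls : List ℕ} {x : ℕ} (h : x < 2 + l.length) : pl (l ++ ls) x = pl l x := by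
  show (((0 : ℕ) :: 1 :: l) ++ ls).getD x 0 = ((0 : ℕ) :: 1 :: l).getD x 0
  exact List.getD_append _ _ _ _ (by simp; omega)

lemma pl_append_right (l ls : List ℕ) (t : ℕ) :
    pl (l ++ ls) (2 + l.length + t) = ls.getD t 0 := by
  rw [add_assoc, pl_two_add, List.getD_append_right _ _ _ _ (by omega), Nat.add_sub_cancel_left]

/-- Coefficient of an orientation in a gadget value. -/
def gco (s : Bool) (p : Bool × Bool) : ℝ :=
  1 / 4 * ((if p.1 then spin s else 1) * (if p.2 then spin s else 1))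

/-- The hyperedges of a gadget attached at slots. -/
def gEdges (Γ : Gadget) {m : ℕ} (a : Fin m → Fin Γ.1) (i j : ℕ) (slot : Fin m → ℕ)
    (p : Bool × Bool) : List (List ℕ) :=
  Γ.2.1.map fun e => edgeReps e a i j p.1 p.2 slot

lemma edgeReps_map {d m : ℕ} (w : ℕ → ℕ) (e : Finset (Fin d) × Bool × Bool) (a : Fin m → Fin d)
    (i j : ℕ) (u v : Bool) (slot : Fin m → ℕ) :
    (edgeReps e a i j u v slot).map w = edgeReps e a (w i) (w j) u v (w ∘ slot) := by
  simp [edgeReps, List.map_append, apply_ite (List.map w), List.map_map]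

lemma mem_edgeReps {d m : ℕ} {e : Finset (Fin d) × Bool × Bool} {a : Fin m → Fin d} {i j : ℕ}
    {u v : Bool} {slot : Fin m → ℕ} {x : ℕ} (hx : x ∈ edgeReps e a i j u v slot) :
    x = i ∨ x = j ∨ ∃ t, slot t = x := by
  simp only [edgeReps, List.mem_append, List.mem_map, List.mem_filter] at hx
  rcases hx with (hx | hx) | ⟨t, -, rfl⟩
  · split_ifs at hx <;> simp_all
  · split_ifs at hx <;> simp_all
  · exact Or.inr (Or.inr ⟨t, rfl⟩)

lemma gadgetValue_pval (Γ : Gadget) (s : Bool) {m : ℕ} (a : Fin m → Fin Γ.1) (i j : ℕ)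
    (slot : Fin m → ℕ) (w : ℕ → ℕ) (ω : Arr) :
    gadgetValue Γ s a (w i) (w j) (w ∘ slot) ω =
      ∑ p : Bool × Bool, gco s p * pval (gEdges Γ a i j slot p) [] w ω := by
  simp only [gadgetValue, Fintype.sum_prod_type, gco, pval, gEdges, List.map_nil, List.prod_nil,
    mul_one, List.map_map, Function.comp_def, edgeReps_map, Finset.mul_sum]
  refine Finset.sum_congr rfl fun u _ => Finset.sum_congr rfl fun v _ => ?_
  ring

lemma pval_append (E E' : List (List ℕ)) (Ks : List (ℕ × ℕ × ℕ)) (w : ℕ → ℕ) (ω : Arr) :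
    pval (E ++ E') Ks w ω = pval E Ks w ω * pval E' [] w ω := by
  simp only [pval, List.map_append, List.prod_append, List.map_nil, List.prod_nil]
  ring

lemma pval_cons (g i j : ℕ) (E : List (List ℕ)) (Ks : List (ℕ × ℕ × ℕ)) (w : ℕ → ℕ) (ω : Arr) :
    pval E ((g, i, j) :: Ks) w ω = pval E Ks w ω * ω.2 g (w i) (w j) := by
  simp only [pval, List.map_cons, List.prod_cons]
  ring

lemma ae_abs_mul_le {ν : Measure Arr} {F G : Arr → ℝ} {C : ℝ} (hC0 : 0 ≤ C)
    (hF : ∀ᵐ ω ∂ν, |F ω| ≤ C) (hG : ∀ᵐ ω ∂ν, |G ω| ≤ 1) : ∀ᵐ ω ∂ν, |F ω * G ω| ≤ C := by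
  filter_upwards [hF, hG] with ω h1 h2
  rw [abs_mul]
  exact (mul_le_mul h1 h2 (abs_nonneg _) hC0).trans_eq (mul_one C)

/-- The gadget identity inside an insertion. -/
lemma gadget_op {ν : Measure Arr} (hν : IsGadgetArray ν) (Γ : Gadget) (s : Bool) :
    ∀ (J n : ℕ) (F : Arr → ℝ) (H : List ℕ → Arr → ℝ) (a b : List ℕ → ℕ), TestFn ν n F →
      (∀ l, Measurable (H l)) → (∀ l, ∀ᵐ ω ∂ν, |H l ω| ≤ 1) →
      (∀ l : List ℕ, l.length = J → (∀ x ∈ l, x < lvl n l) →
        (∀ ω ω', repData (lvl n l) ω = repData (lvl n l) ω' → H l ω = H l ω') ∧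
          a l < lvl n l ∧ b l < lvl n l) →
      HasSum (fun m : ℕ => (m.factorial : ℝ)⁻¹ * ∑ a' : Fin m → Fin Γ.1, (∏ i, Γ.tilt (a' i)) *
          lEI ν n F J fun l ω => H l ω *
            op m (lvl n l) fun ls => toL (gadgetValue Γ s a' (a l) (b l)) ls ω)
        (lEI ν n F J fun l ω => H l ω * ω.2 (kidx Γ s) (a l) (b l)) := by
  haveI := hν.prob
  intro J
  induction J with
  | zero =>
    intro n F H a b hF hHm hHb hd
    obtain ⟨hd1, hd2, hd3⟩ := hd [] rfl (by simp)
    simp only [lvl] at hd1 hd2 hd3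
    have hFH : TestFn ν n fun ω => F ω * H [] ω :=
      hF.mul ⟨hHm [], hd1, 1, zero_le_one, hHb []⟩
    have h := gadget_test hν Γ s hd2 hd3 hFH
    simpa only [lEI, op, lvl, mul_assoc] using h
  | succ J ih =>
    intro n F H a b hF hHm hHb hd
    obtain ⟨C, hC0, hC⟩ := hF.bdd
    have hq : ∀ q ∈ Finset.range n, ∀ l, lvl n (q :: l) = lvl n l := fun q hq l => by
      simp [lvl, Finset.mem_range.1 hq]
    have hn : ∀ l, lvl n (n :: l) = lvl (n + 1) l := fun l => by simp [lvl]
    have h1 : ∀ q ∈ Finset.range n, HasSum (fun m : ℕ => (m.factorial : ℝ)⁻¹ *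
        ∑ a' : Fin m → Fin Γ.1, (∏ i, Γ.tilt (a' i)) * lEI ν n F J fun l ω => H (q :: l) ω *
          op m (lvl n (q :: l)) fun ls => toL (gadgetValue Γ s a' (a (q :: l)) (b (q :: l))) ls ω)
        (lEI ν n F J fun l ω => H (q :: l) ω * ω.2 (kidx Γ s) (a (q :: l)) (b (q :: l))) := by
      intro q hq'
      simp only [hq q hq']
      refine ih n F (fun l => H (q :: l)) (fun l => a (q :: l)) (fun l => b (q :: l)) hF
        (fun l => hHm _) (fun l => hHb _) fun l hl hx => ?_
      rw [← hq q hq' l]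
      refine hd (q :: l) (by simp [hl]) fun x hxm => ?_
      rw [hq q hq' l]
      rcases List.mem_cons.1 hxm with rfl | hxm
      · exact lt_of_lt_of_le (Finset.mem_range.1 hq') (le_lvl l n)
      · exact hx x hxm
    have h2 : HasSum (fun m : ℕ => (m.factorial : ℝ)⁻¹ *
        ∑ a' : Fin m → Fin Γ.1, (∏ i, Γ.tilt (a' i)) * lEI ν (n + 1) F J fun l ω => H (n :: l) ω *
          op m (lvl n (n :: l)) fun ls => toL (gadgetValue Γ s a' (a (n :: l)) (b (n :: l))) ls ω)
        (lEI ν (n + 1) F J fun l ω => H (n :: l) ω * ω.2 (kidx Γ s) (a (n :: l)) (b (n :: l))) := by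
      simp only [hn]
      refine ih (n + 1) F (fun l => H (n :: l)) (fun l => a (n :: l)) (fun l => b (n :: l))
        (hF.mono (Nat.le_succ n)) (fun l => hHm _) (fun l => hHb _) fun l hl hx => ?_
      rw [← hn l]
      refine hd (n :: l) (by simp [hl]) fun x hxm => ?_
      rw [hn l]
      rcases List.mem_cons.1 hxm with rfl | hxm
      · exact lt_of_lt_of_le (Nat.lt_succ_self x) (le_lvl l (x + 1))
      · exact hx x hxm
    have hiK : ∀ l, Integrable (fun ω => F ω * (H l ω * ω.2 (kidx Γ s) (a l) (b l))) ν := fun l =>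
      integrable_of_bdd (C := C) (hF.meas.mul ((hHm l).mul (by fun_prop)))
        (ae_abs_mul_le hC0 hC (ae_abs_mul_le zero_le_one (hHb l) (hν.bound _ _ _)))
    have hiG : ∀ (m : ℕ) (a' : Fin m → Fin Γ.1) l, Integrable (fun ω => F ω * (H l ω *
        op m (lvl n l) fun ls => toL (gadgetValue Γ s a' (a l) (b l)) ls ω)) ν := by
      intro m a' l
      simp only [← mul_assoc]
      refine integrable_mul_op' fun ls => integrable_of_bdd (C := C)
        ((hF.meas.mul (hHm l)).mul (measurable_gadgetValue _ _ _ _ _ _)) ?_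
      exact ae_abs_mul_le hC0 (ae_abs_mul_le hC0 hC (hHb l))
        (Eventually.of_forall fun ω => abs_gadgetValue_le _ _ _ _ _ _ _)
    rw [lEI_succ' hiK]
    refine ((hasSum_sum h1).sub (h2.mul_left (n : ℝ))).congr_fun fun m => ?_
    rw [Finset.sum_congr rfl fun a' _ => by rw [lEI_succ' (hiG m a')]]
    simp only [Finset.mul_sum, mul_sub, Finset.sum_sub_distrib]
    rw [Finset.sum_comm]
    congr 1
    exact Finset.sum_congr rfl fun a' _ => by ring

/-- Insertion of an observable read through a relabelling of the slots. -/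
def sEI (ν : Measure Arr) (σ : ℕ → ℕ) (n : ℕ) (F : Arr → ℝ) (J : ℕ) (X : Obs) : ℝ :=
  lEI ν n F J fun l ω => X (fun x => pl l (σ x)) ω

lemma EI_eq_half {ν : Measure Arr} [IsFiniteMeasure ν] {n J : ℕ} {F : Arr → ℝ} (hF : TestFn ν n F)
    {X : Obs} (hX : IsObs ν J X) : EI ν n F J X =
      1 / 2 * (sEI ν id n F J X + sEI ν (fun x => Equiv.swap 0 1 x) n F J X) := by
  obtain ⟨C, hC0, hC⟩ := hF.bdd
  obtain ⟨D, hD0, hD⟩ := hX.bdd
  have hi : ∀ σ : ℕ → ℕ, Integrable (fun ω => F ω * op J n fun l => X (fun x => pl l (σ x)) ω) ν :=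
    fun σ => integrable_mul_op (n := n) hF.meas hC (fun l => hX.meas _) (fun l => hD _)
  unfold EI sEI lEI
  rw [← integral_add (hi id) (hi _), ← integral_const_mul]
  refine integral_congr_ae (Eventually.of_forall fun ω => ?_)
  show F ω * op J n _ = 1 / 2 * (F ω * op J n _ + F ω * op J n _)
  rw [← mul_add, ← op_add, mul_left_comm, ← op_smul J n (1 / 2)]
  congr 1
  refine op_congr fun l _ _ => ?_
  simp only [ofObs, sym, id]
  ring

/-- One kernel factor expanded into edges. -/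
lemma sEI_kernel {ν : Measure Arr} (hν : IsGadgetArray ν) (Γ : Gadget) (s : Bool) {J : ℕ}
    {E : List (List ℕ)} {Ks : List (ℕ × ℕ × ℕ)} {i j : ℕ} (hE : ∀ e ∈ E, ∀ x ∈ e, x < 2 + J)
    (hK : ∀ k ∈ Ks, k.2.1 < 2 + J ∧ k.2.2 < 2 + J) (hi : i < 2 + J) (hj : j < 2 + J)
    {σ : ℕ → ℕ} (hσ : ∀ x < 2 + J, σ x < 2 + J) (hσ' : ∀ x, 2 + J ≤ x → σ x = x)
    {n : ℕ} (hn : 2 ≤ n) {F : Arr → ℝ} (hF : TestFn ν n F) :
    HasSum (fun m : ℕ => (m.factorial : ℝ)⁻¹ * ∑ a : Fin m → Fin Γ.1, (∏ t, Γ.tilt (a t)) *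
        ∑ p : Bool × Bool, gco s p * sEI ν σ n F (J + m)
          (pval (E ++ gEdges Γ a i j (fun t => 2 + J + t.val) p) Ks))
      (sEI ν σ n F J (pval E ((kidx Γ s, i, j) :: Ks))) := by
  haveI := hν.prob
  obtain ⟨C, hC0, hC⟩ := hF.bdd
  have hobs := isObs_pval hν.toIsGGArray hE hK
  have h := gadget_op hν Γ s J n F (fun l => pval E Ks fun x => pl l (σ x))
    (fun l => pl l (σ i)) (fun l => pl l (σ j)) hF (fun l => hobs.meas _)
    (fun l => (abs_pval_le hν.toIsGGArray E Ks).mono fun ω hω => hω _)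
    (fun l hl hx => ⟨hobs.data _ _ fun x _ => pl_lt hn (le_lvl l n) hx _,
      pl_lt hn (le_lvl l n) hx _, pl_lt hn (le_lvl l n) hx _⟩)
  have hval : (sEI ν σ n F J (pval E ((kidx Γ s, i, j) :: Ks))) =
      lEI ν n F J fun l ω => pval E Ks (fun x => pl l (σ x)) ω *
        ω.2 (kidx Γ s) (pl l (σ i)) (pl l (σ j)) := by
    simp only [sEI, pval_cons]
  rw [hval]
  refine h.congr_fun fun m => ?_
  refine congrArg _ (Finset.sum_congr rfl fun a _ => congrArg _ ?_)
  simp only [sEI]
  rw [← lEI_sum]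
  · unfold lEI
    refine integral_congr_ae (Eventually.of_forall fun ω => congrArg _ ?_)
    rw [op_append]
    refine op_congr fun l hl _ => ?_
    beta_reduce
    rw [← op_smul]
    refine op_congr fun ls hls _ => ?_
    set w : ℕ → ℕ := fun x => pl (l ++ ls) (σ x) with hw
    have hlow : ∀ x < 2 + J, w x = pl l (σ x) := fun x hx =>
      pl_append_left (by rw [hl]; exact hσ x hx)
    have hslot : (w ∘ fun t : Fin m => 2 + J + t.val) = fun t : Fin m => ls.getD t 0 := by
      funext t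
      show pl (l ++ ls) (σ (2 + J + t.val)) = _
      rw [hσ' _ (by omega), ← hl, pl_append_right]
    simp only [pval_append, mul_left_comm (gco s _), ← Finset.mul_sum]
    rw [← gadgetValue_pval, hslot, hlow i hi, hlow j hj, hobs.loc w (fun x => pl l (σ x)) hlow]
    rfl
  · intro p _ l
    exact integrable_of_bdd (C := C) (hF.meas.mul (measurable_pval _ _ _))
      (ae_abs_mul_le hC0 hC ((abs_pval_le hν.toIsGGArray _ _).mono fun ω hω => hω _))

lemma good_congr {ν : Measure Arr} {J : ℕ} {X Y : Obs} (h : ∀ u, X u =ᵐ[ν] Y u)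
    (hY : Good ν J Y) : Good ν J X := by
  obtain ⟨c, hc, hc2⟩ := hY
  refine ⟨c, hc, fun n F hn hF => ?_⟩
  rw [← hc2 n F hn hF]
  refine lEI_congr fun l _ _ => ?_
  filter_upwards [h (pl l), h fun x => pl l (Equiv.swap 0 1 x)] with ω h1 h2
  simp only [ofObs, sym, h1, h2]

lemma good_zero (ν : Measure Arr) (J : ℕ) : Good ν J fun _ _ => 0 :=
  ⟨fun _ => 0, continuous_const, fun n F _ _ => by simp [EI, lEI, ofObs, sym, op_zero]⟩

lemma integrable_mul_cont {ν : Measure Arr} {ρ : ℝ} (ht : IsTreeArray ν ρ) {n : ℕ} {F : Arr → ℝ}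
    (hF : TestFn ν n F) {c : ℝ → ℝ} (hc : Continuous c) (a b : ℕ) :
    Integrable (fun ω => F ω * c (rbar a b ω)) ν := by
  haveI := ht.prob
  obtain ⟨C, hC0, hC⟩ := hF.bdd
  obtain ⟨B, hB⟩ := isCompact_Icc.exists_bound_of_continuousOn (s := Set.Icc (-ρ) ρ) hc.continuousOn
  refine integrable_of_bdd (C := C * B) (hF.meas.mul (hc.measurable.comp (measurable_rbar a b))) ?_
  filter_upwards [hC, ht.rbar_le a b] with ω h1 h2
  rw [abs_mul]
  have := hB _ ⟨(abs_le.1 h2).1, (abs_le.1 h2).2⟩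
  exact mul_le_mul h1 this (abs_nonneg _) hC0

lemma wgt_tail2 (J n : ℕ) (hn : 1 ≤ n) : ∃ D, 0 ≤ D ∧ ∀ m : ℕ,
    wgt (J + m) n * (1 / 8 : ℝ) ^ m / (m.factorial : ℝ) ≤ D * (1 / 2) ^ m := by
  obtain ⟨p, rfl⟩ : ∃ p, n = p + 1 := ⟨n - 1, by omega⟩
  refine ⟨2 ^ J * 2 ^ (p + J) * ((p + J).factorial : ℝ) / (p.factorial : ℝ), by positivity,
    fun m => ?_⟩
  have h1 := wgt_le (J + m) p
  have h2 : ((p + (J + m)).factorial : ℝ) ≤
      2 ^ (p + J + m) * (((p + J).factorial : ℝ) * (m.factorial : ℝ)) := by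
    rw [← add_assoc, ← Nat.add_choose_mul_factorial_mul_factorial (p + J) m]
    push_cast
    rw [mul_assoc]
    refine mul_le_mul_of_nonneg_right ?_ (by positivity)
    exact_mod_cast Nat.choose_le_two_pow (p + J + m) m
  have h3 : wgt (J + m) (p + 1) * (p.factorial : ℝ) ≤
      2 ^ (J + m) * (2 ^ (p + J + m) * (((p + J).factorial : ℝ) * (m.factorial : ℝ))) :=
    h1.trans (mul_le_mul_of_nonneg_left h2 (by positivity))
  have e : (2 : ℝ) ^ m * 2 ^ m * (1 / 8) ^ m = (1 / 2) ^ m := by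
    rw [← mul_pow, ← mul_pow]; norm_num
  rw [div_le_iff₀ (by positivity), div_mul_eq_mul_div, div_mul_eq_mul_div,
    le_div_iff₀ (by positivity)]
  calc wgt (J + m) (p + 1) * (1 / 8) ^ m * (p.factorial : ℝ)
      = wgt (J + m) (p + 1) * (p.factorial : ℝ) * (1 / 8) ^ m := by ring
    _ ≤ 2 ^ (J + m) * (2 ^ (p + J + m) * (((p + J).factorial : ℝ) * (m.factorial : ℝ))) *
        (1 / 8) ^ m := mul_le_mul_of_nonneg_right h3 (by positivity)
    _ = _ := by rw [← e, pow_add, pow_add]; ring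

lemma abs_EI_le {ν : Measure Arr} [IsFiniteMeasure ν] {n J : ℕ} {F : Arr → ℝ} (hF : TestFn ν n F)
    {X : Obs} {B : ℝ} (hX : ∀ u, ∀ᵐ ω ∂ν, |X u ω| ≤ B) :
    |EI ν n F J X| ≤ wgt J n * B * ∫ ω, |F ω| ∂ν := by
  obtain ⟨C, hC0, hC⟩ := hF.bdd
  rw [← integral_const_mul]
  refine abs_integral_le_integral_abs.trans (integral_mono_of_nonneg
    (Eventually.of_forall fun _ => abs_nonneg _)
    ((integrable_of_bdd hF.meas hC).abs.const_mul _) ?_)
  have h : ∀ᵐ ω ∂ν, ∀ l : List ℕ, |ofObs (sym X) l ω| ≤ B := by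
    refine ae_all_iff.2 fun l => ?_
    filter_upwards [hX (pl l), hX fun x => pl l (Equiv.swap 0 1 x)] with ω h1 h2
    simp only [ofObs, sym]
    rw [abs_div, abs_two, div_le_iff₀ two_pos]
    exact (abs_add_le _ _).trans (by linarith)
  filter_upwards [h] with ω hω
  show |F ω * op J n _| ≤ _ * |F ω|
  rw [abs_mul, mul_comm (wgt J n * B)]
  exact mul_le_mul_of_nonneg_left (abs_op_le fun l _ _ => hω l) (abs_nonneg _)

lemma sum_abs_tilt_le (Γ : Gadget) : ∑ a, |Γ.tilt a| ≤ 1 / 8 := by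
  unfold Gadget.tilt
  by_cases h : ∑ i, |Γ.2.2 i| ≤ 1 / 8
  · simp only [if_pos h]
    calc ∑ a, |((Γ.2.2 a : ℚ) : ℝ)| = (((∑ i, |Γ.2.2 i|) : ℚ) : ℝ) := by push_cast; rfl
      _ ≤ (((1 / 8 : ℚ)) : ℝ) := by exact_mod_cast h
      _ = 1 / 8 := by norm_num
  · simp only [if_neg h, abs_zero, Finset.sum_const_zero]
    norm_num

lemma sum_abs_gco (s : Bool) : ∑ p : Bool × Bool, |gco s p| = 1 := by
  have h : |spin s| = 1 := by cases s <;> simp [spin]
  simp [gco, Fintype.sum_prod_type, abs_mul, h]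
  norm_num

/-- Monomials in multi-overlaps and kernels are good. -/
theorem good_pval {ν : Measure Arr} {ρ : ℝ} (hg : IsGadgetArray ν) (ht : IsTreeArray ν ρ) :
    ∀ (Ks : List (ℕ × ℕ × ℕ)) (J : ℕ) (E : List (List ℕ)), (∀ e ∈ E, ∀ x ∈ e, x < 2 + J) →
      (∀ k ∈ Ks, k.2.1 < 2 + J ∧ k.2.2 < 2 + J) → Good ν J (pval E Ks) := by
  haveI := hg.prob
  intro Ks
  induction Ks with
  | nil => intro J E hE _; exact good_edges hg ht hE
  | cons k Ks ih =>
    obtain ⟨g, i, j⟩ := k
    intro J E hE hK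
    have hi : i < 2 + J := (hK _ List.mem_cons_self).1
    have hj : j < 2 + J := (hK _ List.mem_cons_self).2
    have hK' : ∀ k ∈ Ks, k.2.1 < 2 + J ∧ k.2.2 < 2 + J := fun k hk =>
      hK k (List.mem_cons_of_mem _ hk)
    by_cases hg0 : g = 0
    · subst hg0
      refine good_congr (Y := pval ([i, j] :: E) Ks) (fun u => ?_) (ih J _ (fun e he => ?_) hK')
      · filter_upwards [ht.overlap_zero (u i) (u j)] with ω hω
        simp only [pval, List.map_cons, List.prod_cons, List.map_nil, hω]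
        ring
      · rcases List.mem_cons.1 he with rfl | he
        · simp [hi, hj]
        · exact hE e he
    by_cases hex : ∃ (Γ : Gadget) (s : Bool), kidx Γ s = g
    swap
    · push Not at hex
      refine good_congr (fun u => ?_) (good_zero ν J)
      filter_upwards [hg.unused g hg0 hex (u i) (u j)] with ω hω
      simp [pval_cons, hω]
    obtain ⟨Γ, s, rfl⟩ := hex
    have hbd : ∀ m (a : Fin m → Fin Γ.1) p,
        ∀ e ∈ E ++ gEdges Γ a i j (fun t => 2 + J + t.val) p, ∀ x ∈ e, x < 2 + (J + m) := by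
      intro m a p e he x hx
      rcases List.mem_append.1 he with he | he
      · have := hE e he x hx; omega
      · obtain ⟨e', -, rfl⟩ := List.mem_map.1 he
        rcases mem_edgeReps hx with rfl | rfl | ⟨t, rfl⟩
        · omega
        · omega
        · have := t.isLt; omega
    have hK'' : ∀ m, ∀ k ∈ Ks, k.2.1 < 2 + (J + m) ∧ k.2.2 < 2 + (J + m) := fun m k hk => by
      have := hK' k hk; omega
    choose cc hcc hcc2 using fun m (a : Fin m → Fin Γ.1) (p : Bool × Bool) =>
      ih (J + m) _ (hbd m a p) (hK'' m)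
    choose D hD0 hD using fun n : ℕ => wgt_tail2 J (max n 1) (le_max_right _ _)
    set co : (m : ℕ) → (Fin m → Fin Γ.1) → Bool × Bool → ℝ := fun m a p =>
      (m.factorial : ℝ)⁻¹ * (∏ t, Γ.tilt (a t)) * gco s p
    refine good_of_approx ht (fun k q => ∑ m ∈ Finset.range k, ∑ a : Fin m → Fin Γ.1,
        ∑ p : Bool × Bool, co m a p * cc m a p q)
      (fun k => continuous_finsetSum _ fun m _ => continuous_finsetSum _ fun a _ =>
        continuous_finsetSum _ fun p _ => continuous_const.mul (hcc m a p))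
      (fun n k => D n * (1 / 2) ^ k * 2) (fun n _ => ?_) ?_
    · simpa using ((tendsto_pow_atTop_nhds_zero_of_lt_one (by norm_num : (0:ℝ) ≤ 1 / 2)
        (by norm_num)).const_mul (D n)).mul_const 2
    intro k n F hn hF
    set Cf := ∫ ω, |F ω| ∂ν
    set T : ℕ → ℝ := fun m => ∑ a : Fin m → Fin Γ.1, ∑ p : Bool × Bool, co m a p *
      EI ν n F (J + m) (pval (E ++ gEdges Γ a i j (fun t => 2 + J + t.val) p) Ks)
    have hsum : HasSum T (EI ν n F J (pval E ((kidx Γ s, i, j) :: Ks))) := by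
      have h1 := sEI_kernel hg Γ s hE hK' hi hj (σ := id) (fun x hx => hx) (fun x _ => rfl) hn hF
      have h2 := sEI_kernel hg Γ s hE hK' hi hj (σ := fun x => Equiv.swap 0 1 x)
        (fun x hx => by simp only [Equiv.swap_apply_def]; split_ifs <;> omega)
        (fun x hx => Equiv.swap_apply_of_ne_of_ne (by omega) (by omega)) hn hF
      rw [EI_eq_half hF (isObs_pval ht.toIsGGArray hE hK)]
      refine ((h1.add h2).mul_left (1 / 2 : ℝ)).congr_fun fun m => ?_
      simp only [T, co, mul_add, Finset.mul_sum, ← Finset.sum_add_distrib]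
      refine Finset.sum_congr rfl fun a _ => Finset.sum_congr rfl fun p _ => ?_
      rw [EI_eq_half hF (isObs_pval ht.toIsGGArray (hbd m a p) (hK'' m))]
      ring
    have hpart : ∫ ω, F ω * (fun q => ∑ m ∈ Finset.range k, ∑ a : Fin m → Fin Γ.1,
        ∑ p : Bool × Bool, co m a p * cc m a p q) (rbar 0 1 ω) ∂ν = ∑ m ∈ Finset.range k, T m := by
      have hi' : ∀ m a p, Integrable (fun ω => co m a p * (F ω * cc m a p (rbar 0 1 ω))) ν :=
        fun m a p => (integrable_mul_cont ht hF (hcc m a p) 0 1).const_mul _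
      simp only [Finset.mul_sum, mul_left_comm (F _) (co _ _ _)]
      rw [integral_finsetSum _ fun m _ => integrable_finsetSum _ fun a _ =>
        integrable_finsetSum _ fun p _ => hi' m a p]
      refine Finset.sum_congr rfl fun m _ => ?_
      rw [integral_finsetSum _ fun a _ => integrable_finsetSum _ fun p _ => hi' m a p]
      refine Finset.sum_congr rfl fun a _ => ?_
      rw [integral_finsetSum _ fun p _ => hi' m a p]
      refine Finset.sum_congr rfl fun p _ => ?_
      rw [integral_const_mul, hcc2 m a p n F hn hF]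
    have hTb : ∀ m, |T m| ≤ D n * Cf * (1 / 2) ^ m := by
      intro m
      have hw := hD n m
      rw [max_eq_left (by omega : 1 ≤ n)] at hw
      have hCf : 0 ≤ Cf := integral_nonneg fun ω => abs_nonneg _
      calc |T m| ≤ ∑ a : Fin m → Fin Γ.1, ∑ p : Bool × Bool,
            (m.factorial : ℝ)⁻¹ * (∏ t, |Γ.tilt (a t)|) * |gco s p| * (wgt (J + m) n * 1 * Cf) := by
              refine (Finset.abs_sum_le_sum_abs _ _).trans (Finset.sum_le_sum fun a _ =>
                (Finset.abs_sum_le_sum_abs _ _).trans (Finset.sum_le_sum fun p _ => ?_))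
              simp only [co, abs_mul, abs_inv, Finset.abs_prod, Nat.abs_cast]
              exact mul_le_mul_of_nonneg_left (abs_EI_le hF fun u =>
                (abs_pval_le ht.toIsGGArray _ _).mono fun ω hω => hω u) (by positivity)
        _ = (m.factorial : ℝ)⁻¹ * (∑ a : Fin m → Fin Γ.1, ∏ t, |Γ.tilt (a t)|) *
              (wgt (J + m) n * Cf) := by
              rw [Finset.mul_sum, Finset.sum_mul]
              refine Finset.sum_congr rfl fun a _ => ?_
              rw [← Finset.sum_mul, ← Finset.mul_sum, sum_abs_gco]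
              ring
        _ = (m.factorial : ℝ)⁻¹ * (∑ a, |Γ.tilt a|) ^ m * (wgt (J + m) n * Cf) := by
              rw [← Fintype.prod_sum (fun (_ : Fin m) a => |Γ.tilt a|)]
              simp
        _ ≤ (m.factorial : ℝ)⁻¹ * (1 / 8) ^ m * (wgt (J + m) n * Cf) := by
              refine mul_le_mul_of_nonneg_right (mul_le_mul_of_nonneg_left
                (pow_le_pow_left₀ (Finset.sum_nonneg fun a _ => abs_nonneg _) (sum_abs_tilt_le Γ) m)
                (by positivity)) (mul_nonneg (wgt_nonneg _ _) hCf)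
        _ = wgt (J + m) n * (1 / 8) ^ m / (m.factorial : ℝ) * Cf := by ring
        _ ≤ D n * (1 / 2) ^ m * Cf := mul_le_mul_of_nonneg_right hw hCf
        _ = _ := by ring
    rw [hpart, abs_sub_comm]
    have htail := (hasSum_nat_add_iff' k).2 hsum
    have hgeo : HasSum (fun m : ℕ => D n * Cf * (1 / 2) ^ k * (1 / 2) ^ m)
        (D n * Cf * (1 / 2) ^ k * 2) := hasSum_geometric_two.mul_left _
    have hfin := tsum_of_norm_bounded hgeo (f := fun m => T (m + k)) fun m => by
      rw [Real.norm_eq_abs]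
      exact (hTb (m + k)).trans_eq (by rw [pow_add]; ring)
    rw [htail.tsum_eq, Real.norm_eq_abs] at hfin
    exact hfin.trans_eq (by ring)

end Vale.Agent.P168.Core
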