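import Vale.Agent.P168.Core.Op

/-! Observables of replica arrays and the invariance of expected insertions. -/

open MeasureTheory Filter
open scoped BigOperators

noncomputable section

namespace Vale.Agent.P168.Core

/-- An observable: replicas in slots give a function of the array. -/
abbrev Obs := (ℕ → ℕ) → Arr → ℝ

/-- Slots `0, 1` at the pins and the remaining ones at a list. -/
def pl (l : List ℕ) : ℕ → ℕ := fun i => ((0 : ℕ) :: 1 :: l).getD i 0

/-- A test function of the first `n` replicas. -/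
structure TestFn (ν : Measure Arr) (n : ℕ) (F : Arr → ℝ) : Prop where
  meas : Measurable F
  data : ∀ ω ω', repData n ω = repData n ω' → F ω = F ω'
  bdd : ∃ C, 0 ≤ C ∧ ∀ᵐ ω ∂ν, |F ω| ≤ C

/-- An observable with `J` insertion slots. -/
structure IsObs (ν : Measure Arr) (J : ℕ) (G : Obs) : Prop where
  meas : ∀ u, Measurable (G u)
  equiv : ∀ (π : Equiv.Perm ℕ) u ω, G (π ∘ u) ω = G u (permRep π ω)
  data : ∀ n u, (∀ i < 2 + J, u i < n) → ∀ ω ω', repData n ω = repData n ω' → G u ω = G u ω'
  loc : ∀ u u', (∀ i < 2 + J, u i = u' i) → G u = G u'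
  bdd : ∃ C, 0 ≤ C ∧ ∀ u, ∀ᵐ ω ∂ν, |G u ω| ≤ C

/-- A family indexed by lists of replicas, equivariant for permutations fixing the first `n`. -/
structure ListObs (ν : Measure Arr) (n : ℕ) (H : List ℕ → Arr → ℝ) : Prop where
  meas : ∀ l, Measurable (H l)
  equiv : ∀ π : Equiv.Perm ℕ, (∀ x < n, π x = x) → ∀ l ω, H (l.map π) ω = H l (permRep π ω)
  bdd : ∃ C, 0 ≤ C ∧ ∀ l, ∀ᵐ ω ∂ν, |H l ω| ≤ C

/-- Expected insertion of a family of lists. -/
def lEI (ν : Measure Arr) (n : ℕ) (F : Arr → ℝ) (J : ℕ) (H : List ℕ → Arr → ℝ) : ℝ :=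
  ∫ ω, F ω * op J n (fun l => H l ω) ∂ν

/-- The family of lists of an observable. -/
def ofObs (G : Obs) : List ℕ → Arr → ℝ := fun l ω => G (pl l) ω

lemma measurable_permRep (π : Equiv.Perm ℕ) : Measurable (permRep π) := by
  unfold permRep
  fun_prop

lemma measurable_repData (n : ℕ) : Measurable (repData n) := by
  unfold repData
  fun_prop

/-- An array with the given data. -/
def extData (n : ℕ) (z : RepData n) : Arr :=
  (fun l => if h : l < n then z.1 ⟨l, h⟩ else fun _ => false,
    fun g a b => if h : a < n ∧ b < n then z.2 g ⟨a, h.1⟩ ⟨b, h.2⟩ else 0)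

lemma measurable_extData (n : ℕ) : Measurable (extData n) := by
  unfold extData
  refine Measurable.prodMk ?_ ?_
  · refine measurable_pi_lambda _ fun l => ?_
    by_cases h : l < n <;> simp only [h, dite_true, dite_false] <;> fun_prop
  · refine measurable_pi_lambda _ fun g => measurable_pi_lambda _ fun a =>
      measurable_pi_lambda _ fun b => ?_
    by_cases h : a < n ∧ b < n <;> simp only [h, dite_false, dite_true, and_self] <;> fun_prop

lemma repData_extData (n : ℕ) (z : RepData n) : repData n (extData n z) = z := by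
  refine Prod.ext ?_ ?_
  · funext l; simp [repData, extData]
  · funext g a b; simp [repData, extData]

lemma TestFn.factor {ν : Measure Arr} {n : ℕ} {F : Arr → ℝ} (hF : TestFn ν n F) :
    ∃ F' : RepData n → ℝ, Measurable F' ∧ ∀ ω, F' (repData n ω) = F ω :=
  ⟨fun z => F (extData n z), hF.meas.comp (measurable_extData n),
    fun _ => hF.data _ _ (repData_extData n _)⟩

lemma repData_mono {n m : ℕ} (h : n ≤ m) {ω ω' : Arr} (e : repData m ω = repData m ω') :
    repData n ω = repData n ω' := by
  refine Prod.ext ?_ ?_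
  · funext l
    exact congrFun (congrArg Prod.fst e) ⟨l, by omega⟩
  · funext g a b
    exact congrFun (congrFun (congrFun (congrArg Prod.snd e) g) ⟨a, by omega⟩) ⟨b, by omega⟩

lemma TestFn.mono {ν : Measure Arr} {n m : ℕ} {F : Arr → ℝ} (hF : TestFn ν n F) (h : n ≤ m) :
    TestFn ν m F :=
  ⟨hF.meas, fun _ _ e => hF.data _ _ (repData_mono h e), hF.bdd⟩

lemma TestFn.mul {ν : Measure Arr} {n : ℕ} {F F' : Arr → ℝ} (hF : TestFn ν n F)
    (hF' : TestFn ν n F') : TestFn ν n fun ω => F ω * F' ω := by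
  obtain ⟨C, hC0, hC⟩ := hF.bdd
  obtain ⟨C', hC0', hC'⟩ := hF'.bdd
  refine ⟨hF.meas.mul hF'.meas, fun ω ω' e => ?_, C * C', mul_nonneg hC0 hC0', ?_⟩
  · rw [hF.data _ _ e, hF'.data _ _ e]
  · filter_upwards [hC, hC'] with ω h h'
    rw [abs_mul]
    exact mul_le_mul h h' (abs_nonneg _) hC0

lemma TestFn.perm {ν : Measure Arr} {n : ℕ} {F : Arr → ℝ} (hF : TestFn ν n F)
    {π : Equiv.Perm ℕ} (hπ : ∀ x < n, π x = x) (ω : Arr) : F (permRep π ω) = F ω := by
  refine hF.data _ _ (Prod.ext ?_ ?_)
  · funext l; simp [repData, permRep, hπ l l.isLt]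
  · funext g a b; simp [repData, permRep, hπ a a.isLt, hπ b b.isLt]

lemma integral_perm {ν : Measure Arr} (hν : IsGGArray ν) (π : Equiv.Perm ℕ) {f : Arr → ℝ}
    (hf : Measurable f) : ∫ ω, f (permRep π ω) ∂ν = ∫ ω, f ω ∂ν := by
  conv_rhs => rw [← hν.exch_rep π]
  rw [integral_map (measurable_permRep π).aemeasurable hf.aestronglyMeasurable]

lemma measurable_op {J n : ℕ} {H : List ℕ → Arr → ℝ} (h : ∀ l, Measurable (H l)) :
    Measurable fun ω => op J n fun l => H l ω := by
  induction J generalizing n H with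
  | zero => exact h []
  | succ J ih =>
    exact (Finset.measurable_sum _ fun q _ => ih fun l => h (q :: l)).sub
      ((ih fun l => h (n :: l)).const_mul _)

lemma integrable_mul_op {ν : Measure Arr} [IsFiniteMeasure ν] {n : ℕ} {F : Arr → ℝ}
    {J m : ℕ} {H : List ℕ → Arr → ℝ} {C D : ℝ} (hF : Measurable F) (hFb : ∀ᵐ ω ∂ν, |F ω| ≤ C)
    (hH : ∀ l, Measurable (H l)) (hHb : ∀ l, ∀ᵐ ω ∂ν, |H l ω| ≤ D) :
    Integrable (fun ω => F ω * op J m fun l => H l ω) ν := by
  refine Integrable.mono' (integrable_const (|C| * (wgt J m * |D|)))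
    (hF.mul (measurable_op hH)).aestronglyMeasurable ?_
  filter_upwards [hFb, ae_all_iff.2 hHb] with ω h1 h2
  rw [Real.norm_eq_abs, abs_mul]
  exact mul_le_mul (h1.trans (le_abs_self C))
    (abs_op_le fun l _ _ => (h2 l).trans (le_abs_self D)) (abs_nonneg _) (abs_nonneg _)

lemma lEI_succ {ν : Measure Arr} [IsFiniteMeasure ν] {n J : ℕ} {F : Arr → ℝ}
    {H : List ℕ → Arr → ℝ} (hF : TestFn ν n F) (hH : ListObs ν n H) :
    lEI ν n F (J + 1) H = (∑ q ∈ Finset.range n, lEI ν n F J fun l => H (q :: l)) -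
      (n : ℝ) * lEI ν (n + 1) F J fun l => H (n :: l) := by
  obtain ⟨C, _, hC⟩ := hF.bdd
  obtain ⟨D, _, hD⟩ := hH.bdd
  have hi : ∀ m q : ℕ, Integrable (fun ω => F ω * op J m fun l => H (q :: l) ω) ν := fun m q =>
    integrable_mul_op (n := n) hF.meas hC (fun l => hH.meas _) (fun l => hD _)
  unfold lEI
  have e : ∀ ω, F ω * op (J + 1) n (fun l => H l ω) =
      (∑ q ∈ Finset.range n, F ω * op J n fun l => H (q :: l) ω) -
        (n : ℝ) * (F ω * op J (n + 1) fun l => H (n :: l) ω) := by
    intro ω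
    simp only [op]
    rw [mul_sub, Finset.mul_sum]
    ring
  simp only [e]
  rw [integral_sub (integrable_finsetSum _ fun q _ => hi n q) ((hi (n + 1) n).const_mul _),
    integral_finsetSum _ (fun q _ => hi n q), integral_const_mul]

lemma ListObs.cons {ν : Measure Arr} {n m q : ℕ} {H : List ℕ → Arr → ℝ} (hH : ListObs ν n H)
    (hnm : n ≤ m) (hq : q < m) : ListObs ν m fun l => H (q :: l) := by
  obtain ⟨D, hD0, hD⟩ := hH.bdd
  refine ⟨fun l => hH.meas _, fun π hπ l ω => ?_, D, hD0, fun l => hD _⟩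
  rw [← hH.equiv π (fun x hx => hπ x (lt_of_lt_of_le hx hnm)) (q :: l) ω, List.map_cons, hπ q hq]

/-- Exchange the entries at positions `i, i+1`. -/
def swapList : ℕ → List ℕ → List ℕ
  | 0, a :: b :: l => b :: a :: l
  | i + 1, a :: l => a :: swapList i l
  | _, l => l

lemma lEI_congr {ν : Measure Arr} {n J : ℕ} {F : Arr → ℝ} {H H' : List ℕ → Arr → ℝ}
    (h : ∀ l : List ℕ, l.length = J → (∀ x ∈ l, x < n + J) → ∀ᵐ ω ∂ν, H l ω = H' l ω) :
    lEI ν n F J H = lEI ν n F J H' := by
  refine integral_congr_ae ?_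
  have h' : ∀ᵐ ω ∂ν, ∀ l : List ℕ, l.length = J → (∀ x ∈ l, x < n + J) → H l ω = H' l ω := by
    rw [ae_all_iff]; intro l
    by_cases hl : l.length = J ∧ ∀ x ∈ l, x < n + J
    · filter_upwards [h l hl.1 hl.2] with ω hω _ _ using hω
    · exact Eventually.of_forall fun ω h1 h2 => absurd ⟨h1, h2⟩ hl
  filter_upwards [h'] with ω hω
  rw [op_congr hω]

lemma lEI_swap {ν : Measure Arr} (hν : IsGGArray ν) :
    ∀ (i J n : ℕ) (F : Arr → ℝ) (H : List ℕ → Arr → ℝ), TestFn ν n F → ListObs ν n H → i + 1 < J →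
      lEI ν n F J (fun l => H (swapList i l)) = lEI ν n F J H := by
  haveI := hν.prob
  intro i
  induction i with
  | zero =>
    intro J n F H hF hH hJ
    obtain ⟨j, rfl⟩ : ∃ j, J = j + 2 := ⟨J - 2, by omega⟩
    have hH' : ListObs ν n fun l => H (swapList 0 l) := by
      obtain ⟨D, hD0, hD⟩ := hH.bdd
      refine ⟨fun l => hH.meas _, fun π hπ l ω => ?_, D, hD0, fun l => hD _⟩
      rw [← hH.equiv π hπ (swapList 0 l) ω]
      rcases l with _ | ⟨a, _ | ⟨b, l⟩⟩ <;> simp [swapList]
    have expand : ∀ (H : List ℕ → Arr → ℝ), ListObs ν n H →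
        lEI ν n F (j + 2) H =
          (∑ q ∈ Finset.range n, ∑ q' ∈ Finset.range n, lEI ν n F j fun l => H (q :: q' :: l))
          - (n : ℝ) * (∑ q ∈ Finset.range n, lEI ν (n + 1) F j fun l => H (q :: n :: l))
          - (n : ℝ) * (∑ q ∈ Finset.range n, lEI ν (n + 1) F j fun l => H (n :: q :: l))
          - (n : ℝ) * lEI ν (n + 1) F j (fun l => H (n :: n :: l))
          + (n : ℝ) * ((n : ℝ) + 1) * lEI ν (n + 2) F j (fun l => H (n :: (n + 1) :: l)) := by
      intro H hH
      rw [lEI_succ hF hH,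
        Finset.sum_congr rfl fun q hq =>
          lEI_succ (J := j) hF (hH.cons le_rfl (Finset.mem_range.1 hq)),
        lEI_succ (J := j) (hF.mono (Nat.le_succ n)) (hH.cons (Nat.le_succ n) (Nat.lt_succ_self n)),
        Finset.sum_range_succ, Finset.sum_sub_distrib, ← Finset.mul_sum]
      push_cast
      ring
    have hres : lEI ν (n + 2) F j (fun l => H ((n + 1) :: n :: l)) =
        lEI ν (n + 2) F j (fun l => H (n :: (n + 1) :: l)) := by
      set π := Equiv.swap n (n + 1)
      have hπ : ∀ x < n, π x = x := fun x hx =>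
        Equiv.swap_apply_of_ne_of_ne (by omega) (by omega)
      have hπ2 : ∀ x, n + 2 ≤ x → π x = x := fun x hx =>
        Equiv.swap_apply_of_ne_of_ne (by omega) (by omega)
      have key : ∀ ω, (op j (n + 2) fun l => H ((n + 1) :: n :: l) ω) =
          op j (n + 2) fun l => H (n :: (n + 1) :: l) (permRep π ω) := by
        intro ω
        rw [← op_map_perm π hπ2 fun l => H ((n + 1) :: n :: l) ω]
        refine op_congr fun l _ _ => ?_
        rw [← hH.equiv π hπ]
        simp [π]
      unfold lEI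
      simp only [key]
      conv_rhs => rw [← integral_perm hν π
        (f := fun ω => F ω * op j (n + 2) fun l => H (n :: (n + 1) :: l) ω)
        (hF.meas.mul (measurable_op fun l => hH.meas _))]
      simp [hF.perm hπ]
    rw [expand _ hH', expand _ hH]
    simp only [swapList]
    rw [hres, Finset.sum_comm]
    ring
  | succ i ih =>
    intro J n F H hF hH hJ
    obtain ⟨j, rfl⟩ : ∃ j, J = j + 1 := ⟨J - 1, by omega⟩
    have hH' : ListObs ν n fun l => H (swapList (i + 1) l) := by
      obtain ⟨D, hD0, hD⟩ := hH.bdd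
      refine ⟨fun l => hH.meas _, fun π hπ l ω => ?_, D, hD0, fun l => hD _⟩
      rw [← hH.equiv π hπ (swapList (i + 1) l) ω]
      congr 1
      clear hJ hH hF
      generalize i + 1 = k
      induction k generalizing l with
      | zero => rcases l with _ | ⟨a, _ | ⟨b, l⟩⟩ <;> simp [swapList]
      | succ k ihk => rcases l with _ | ⟨a, l⟩ <;> simp [swapList, ihk]
    rw [lEI_succ hF hH', lEI_succ hF hH]
    simp only [swapList]
    congr 1
    · exact Finset.sum_congr rfl fun q hq =>
        ih j n F _ hF (hH.cons le_rfl (Finset.mem_range.1 hq)) (by omega)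
    · congr 1
      exact ih j (n + 1) F _ (hF.mono (Nat.le_succ n))
        (hH.cons (Nat.le_succ n) (Nat.lt_succ_self n)) (by omega)

/-- Reindexing of the entries of a list. -/
def reidx {J : ℕ} (σ : Equiv.Perm (Fin J)) (l : List ℕ) : List ℕ :=
  List.ofFn fun i => l.getD (σ i) 0

lemma length_reidx {J : ℕ} (σ : Equiv.Perm (Fin J)) (l : List ℕ) : (reidx σ l).length = J := by
  simp [reidx]

lemma length_swapList : ∀ (i : ℕ) (l : List ℕ), (swapList i l).length = l.length
  | 0, [] => rfl
  | 0, [_] => rfl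
  | 0, _ :: _ :: _ => rfl
  | _ + 1, [] => rfl
  | i + 1, a :: l => by simp [swapList, length_swapList i l]

lemma getD_swapList : ∀ (i : ℕ) (l : List ℕ) (k : ℕ), i + 1 < l.length →
    (swapList i l).getD k 0 = l.getD (Equiv.swap i (i + 1) k) 0
  | 0, [], _, h => by simp at h
  | 0, [_], _, h => by simp at h
  | 0, a :: b :: l, k, _ => by
    rcases k with _ | _ | k
    · simp [swapList]
    · simp [swapList]
    · simp [swapList, Equiv.swap_apply_of_ne_of_ne]
  | _ + 1, [], _, h => by simp at h
  | i + 1, a :: l, k, h => by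
    rcases k with _ | k
    · rw [Equiv.swap_apply_of_ne_of_ne (by omega) (by omega)]; simp [swapList]
    · have := getD_swapList i l k (by simpa using h)
      have hs : Equiv.swap (i + 1) (i + 1 + 1) (k + 1) = Equiv.swap i (i + 1) k + 1 := by
        simp only [Equiv.swap_apply_def]
        split_ifs <;> omega
      rw [hs]
      simpa [swapList] using this

/-- Expected insertions do not depend on the order of the slots. -/
lemma lEI_perm {ν : Measure Arr} (hν : IsGGArray ν) {J : ℕ} (σ : Equiv.Perm (Fin J)) :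
    ∀ (n : ℕ) (F : Arr → ℝ) (H : List ℕ → Arr → ℝ), TestFn ν n F → ListObs ν n H →
      lEI ν n F J (fun l => H (reidx σ l)) = lEI ν n F J H := by
  have hid : ∀ l : List ℕ, l.length = J → reidx (1 : Equiv.Perm (Fin J)) l = l := by
    intro l hl
    refine List.ext_getElem (by simp [length_reidx, hl]) fun k h1 h2 => ?_
    simp only [reidx, List.getElem_ofFn, Equiv.Perm.one_apply]
    exact List.getD_eq_getElem _ _ h2
  rcases J with _ | m
  · intro n F H _ _
    refine lEI_congr fun l hl _ => Eventually.of_forall fun ω => ?_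
    rw [Subsingleton.elim σ 1, hid l hl]
  have hmul : ∀ (σ τ : Equiv.Perm (Fin (m + 1))) (l : List ℕ),
      reidx τ (reidx σ l) = reidx (σ * τ) l := by
    intro σ τ l
    simp only [reidx, List.ofFn_inj]
    funext i
    rw [List.getD_eq_getElem _ _ (by rw [List.length_ofFn]; exact (τ i).isLt)]
    simp only [List.getElem_ofFn, Equiv.Perm.mul_apply, Fin.eta]
  have hlist : ∀ (σ : Equiv.Perm (Fin (m + 1))) n (H : List ℕ → Arr → ℝ), ListObs ν n H →
      ListObs ν n fun l => H (if l.length = m + 1 then reidx σ l else l) := by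
    intro σ n H hH
    obtain ⟨D, hD0, hD⟩ := hH.bdd
    refine ⟨fun l => hH.meas _, fun π hπ l ω => ?_, D, hD0, fun l => hD _⟩
    rw [← hH.equiv π hπ]
    congr 1
    by_cases hl : l.length = m + 1
    · simp only [List.length_map, hl, if_true, reidx, List.map_ofFn]
      congr 1; funext i
      rw [Function.comp_apply,
        List.getD_eq_getElem _ _ (show (σ i : ℕ) < l.length by rw [hl]; exact (σ i).isLt),
        List.getD_eq_getElem _ _ (show (σ i : ℕ) < (l.map π).length by
          rw [List.length_map, hl]; exact (σ i).isLt), List.getElem_map]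
    · simp [List.length_map, hl]
  have hmem : σ ∈ Submonoid.closure
      (Set.range fun i : Fin m => Equiv.swap i.castSucc i.succ) := by
    rw [Equiv.Perm.mclosure_swap_castSucc_succ]; trivial
  refine Submonoid.closure_induction
    (motive := fun σ _ => ∀ (n : ℕ) (F : Arr → ℝ) (H : List ℕ → Arr → ℝ), TestFn ν n F → ListObs ν n H →
      lEI ν n F (m + 1) (fun l => H (reidx σ l)) = lEI ν n F (m + 1) H) ?_ ?_ ?_ hmem
  · rintro _ ⟨i, rfl⟩ n F H hF hH
    rw [← lEI_swap hν i (m + 1) n F H hF hH (by have := i.isLt; omega)]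
    refine lEI_congr fun l hl _ => Eventually.of_forall fun ω => ?_
    congr 1
    refine List.ext_getElem (by simp [length_reidx, length_swapList, hl]) fun k h1 h2 => ?_
    rw [← List.getD_eq_getElem _ 0 h2, getD_swapList _ _ _ (by have := i.isLt; omega)]
    simp only [reidx, List.getElem_ofFn]
    congr 1
    simp only [Equiv.swap_apply_def, Fin.ext_iff, Fin.val_castSucc, Fin.val_succ]
    split_ifs <;> simp
  · intro n F H _ _
    exact lEI_congr fun l hl _ => Eventually.of_forall fun ω => by rw [hid l hl]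
  · intro σ τ _ _ hσ hτ n F H hF hH
    have h1 := hσ n F _ hF (hlist τ n H hH)
    have h2 := hτ n F H hF hH
    have e1 : lEI ν n F (m + 1) (fun l => H (reidx (σ * τ) l)) = lEI ν n F (m + 1)
        (fun l => (fun l => H (if l.length = m + 1 then reidx τ l else l)) (reidx σ l)) :=
      lEI_congr fun l hl _ => Eventually.of_forall fun ω => by
        simp [length_reidx, hmul]
    have e2 : lEI ν n F (m + 1) (fun l => H (if l.length = m + 1 then reidx τ l else l)) =
        lEI ν n F (m + 1) (fun l => H (reidx τ l)) :=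
      lEI_congr fun l hl _ => Eventually.of_forall fun ω => by simp [hl]
    rw [e1, h1, e2, h2]

end Vale.Agent.P168.Core
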