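import Vale.Agent.P168.Statements

/-! The insertion operator on lists of replicas: algebraic properties. -/

open MeasureTheory
open scoped BigOperators

noncomputable section

namespace Vale.Agent.P168.Core

/-- The insertion operator acting on functions of the list of chosen replicas. -/
def op : ℕ → ℕ → (List ℕ → ℝ) → ℝ
  | 0, _, H => H []
  | J + 1, n, H => (∑ q ∈ Finset.range n, op J n fun l => H (q :: l)) -
      (n : ℝ) * op J (n + 1) fun l => H (n :: l)

/-- Total weight of `op`. -/
def wgt : ℕ → ℕ → ℝ
  | 0, _ => 1
  | J + 1, n => (n : ℝ) * wgt J n + (n : ℝ) * wgt J (n + 1)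

/-- Weight of the all-fresh path. -/
def fwgt : ℕ → ℕ → ℝ
  | 0, _ => 1
  | J + 1, n => -(n : ℝ) * fwgt J (n + 1)

/-- The level reached after placing the replicas of a list. -/
def lvl : ℕ → List ℕ → ℕ
  | n, [] => n
  | n, q :: l => if q < n then lvl n l else lvl (n + 1) l

lemma wgt_nonneg : ∀ J n, 0 ≤ wgt J n
  | 0, _ => zero_le_one
  | J + 1, n => add_nonneg (mul_nonneg (Nat.cast_nonneg n) (wgt_nonneg J n))
      (mul_nonneg (Nat.cast_nonneg n) (wgt_nonneg J (n + 1)))

lemma fwgt_ne_zero : ∀ J n, 1 ≤ n → fwgt J n ≠ 0
  | 0, _, _ => one_ne_zero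
  | J + 1, n, hn => mul_ne_zero (neg_ne_zero.2 (by exact_mod_cast (show n ≠ 0 by omega)))
      (fwgt_ne_zero J (n + 1) (by omega))

lemma wgt_le (J : ℕ) : ∀ m : ℕ,
    wgt J (m + 1) * (m.factorial : ℝ) ≤ (2 : ℝ) ^ J * ((m + J).factorial : ℝ) := by
  induction J with
  | zero => intro m; simp [wgt]
  | succ J ih =>
    intro m
    have h1 := ih m
    have h2 := ih (m + 1)
    have h3 : ((m + 1 : ℕ) : ℝ) * ((m + J).factorial : ℝ) ≤ ((m + J + 1).factorial : ℝ) := by
      rw [Nat.factorial_succ (m + J)]
      push_cast
      gcongr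
      linarith [(Nat.cast_nonneg J : (0 : ℝ) ≤ J)]
    rw [Nat.factorial_succ] at h2
    rw [show m + (J + 1) = m + J + 1 by ring, show m + 1 + J = m + J + 1 by ring] at *
    simp only [wgt]
    push_cast at h2 h3 ⊢
    have h4 := mul_le_mul_of_nonneg_left h1 (show (0 : ℝ) ≤ (m : ℝ) + 1 by positivity)
    have h5 := mul_le_mul_of_nonneg_left h3 (show (0 : ℝ) ≤ (2 : ℝ) ^ J by positivity)
    rw [pow_succ]
    nlinarith

lemma op_congr {J n : ℕ} {H H' : List ℕ → ℝ}
    (h : ∀ l : List ℕ, l.length = J → (∀ x ∈ l, x < n + J) → H l = H' l) :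
    op J n H = op J n H' := by
  induction J generalizing n H H' with
  | zero => exact h [] rfl (by simp)
  | succ J ih =>
    simp only [op]
    congr 1
    · refine Finset.sum_congr rfl fun q hq => ih fun l hl hx => h (q :: l) (by simp [hl]) ?_
      intro x hxm
      rcases List.mem_cons.1 hxm with rfl | hxm
      · have := Finset.mem_range.1 hq; omega
      · have := hx x hxm; omega
    · congr 1
      refine ih fun l hl hx => h (n :: l) (by simp [hl]) ?_
      intro x hxm
      rcases List.mem_cons.1 hxm with rfl | hxm
      · omega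
      · have := hx x hxm; omega

lemma op_add (J n : ℕ) (H H' : List ℕ → ℝ) :
    op J n (fun l => H l + H' l) = op J n H + op J n H' := by
  induction J generalizing n H H' with
  | zero => rfl
  | succ J ih => simp only [op, ih, Finset.sum_add_distrib]; ring

lemma op_smul (J n : ℕ) (c : ℝ) (H : List ℕ → ℝ) :
    op J n (fun l => c * H l) = c * op J n H := by
  induction J generalizing n H with
  | zero => rfl
  | succ J ih => simp only [op, ih, ← Finset.mul_sum]; ring

lemma op_zero (J n : ℕ) : op J n (fun _ => 0) = 0 := by
  have := op_smul J n 0 (fun _ => (0 : ℝ))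
  simpa using this

lemma op_sub (J n : ℕ) (H H' : List ℕ → ℝ) :
    op J n (fun l => H l - H' l) = op J n H - op J n H' := by
  induction J generalizing n H H' with
  | zero => rfl
  | succ J ih => simp only [op, ih, Finset.sum_sub_distrib]; ring

lemma op_sum {ι : Type*} (s : Finset ι) (J n : ℕ) (H : ι → List ℕ → ℝ) :
    op J n (fun l => ∑ i ∈ s, H i l) = ∑ i ∈ s, op J n (H i) := by
  induction J generalizing n H with
  | zero => rfl
  | succ J ih =>
    simp only [op, ih, Finset.sum_sub_distrib, ← Finset.mul_sum]
    rw [Finset.sum_comm]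

lemma abs_op_le {J n : ℕ} {H : List ℕ → ℝ} {C : ℝ}
    (h : ∀ l : List ℕ, l.length = J → (∀ x ∈ l, x < n + J) → |H l| ≤ C) :
    |op J n H| ≤ wgt J n * C := by
  induction J generalizing n H with
  | zero => simpa [op, wgt] using h [] rfl (by simp)
  | succ J ih =>
    simp only [op, wgt]
    have h1 : ∀ q ∈ Finset.range n, |op J n fun l => H (q :: l)| ≤ wgt J n * C := fun q hq =>
      ih fun l hl hx => h (q :: l) (by simp [hl]) (by
        intro x hxm
        rcases List.mem_cons.1 hxm with rfl | hxm
        · have := Finset.mem_range.1 hq; omega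
        · have := hx x hxm; omega)
    have h2 : |op J (n + 1) fun l => H (n :: l)| ≤ wgt J (n + 1) * C :=
      ih fun l hl hx => h (n :: l) (by simp [hl]) (by
        intro x hxm
        rcases List.mem_cons.1 hxm with rfl | hxm
        · omega
        · have := hx x hxm; omega)
    refine (abs_sub _ _).trans ?_
    have h3 := (Finset.abs_sum_le_sum_abs _ _).trans (Finset.sum_le_sum h1)
    rw [Finset.sum_const, Finset.card_range, nsmul_eq_mul] at h3
    rw [abs_mul, abs_of_nonneg (Nat.cast_nonneg n : (0:ℝ) ≤ n)]
    have h4 := mul_le_mul_of_nonneg_left h2 (Nat.cast_nonneg n : (0:ℝ) ≤ n)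
    linarith

/-- If only lists of distinct fresh replicas contribute, only one path survives. -/
lemma op_fresh {J n : ℕ} {H : List ℕ → ℝ}
    (h : ∀ l : List ℕ, l.length = J → (∀ x ∈ l, x < n + J) →
      ¬(l.Nodup ∧ ∀ x ∈ l, n ≤ x) → H l = 0) :
    op J n H = fwgt J n * H (List.range' n J) := by
  induction J generalizing n H with
  | zero => simp [op, fwgt]
  | succ J ih =>
    have h0 : ∀ q ∈ Finset.range n, (op J n fun l => H (q :: l)) = 0 := by
      intro q hq
      rw [← op_zero J n]
      refine op_congr fun l hl hx => h (q :: l) (by simp [hl]) ?_ ?_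
      · intro x hxm
        rcases List.mem_cons.1 hxm with rfl | hxm
        · have := Finset.mem_range.1 hq; omega
        · have := hx x hxm; omega
      · rintro ⟨-, hall⟩
        have := hall q List.mem_cons_self
        have := Finset.mem_range.1 hq
        omega
    have h1 : (op J (n + 1) fun l => H (n :: l)) =
        fwgt J (n + 1) * H (n :: List.range' (n + 1) J) := by
      refine ih fun l hl hx hnot => h (n :: l) (by simp [hl]) ?_ ?_
      · intro x hxm
        rcases List.mem_cons.1 hxm with rfl | hxm
        · omega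
        · have := hx x hxm; omega
      · rintro ⟨hnd, hall⟩
        rw [List.nodup_cons] at hnd
        refine hnot ⟨hnd.2, fun x hxm => ?_⟩
        have := hall x (List.mem_cons_of_mem _ hxm)
        rcases eq_or_ne x n with rfl | hne
        · exact absurd hxm hnd.1
        · omega
    simp only [op, fwgt]
    rw [Finset.sum_eq_zero h0, h1, List.range'_succ]
    ring

/-- `op` commutes with permutations of the old replicas. -/
lemma op_map_perm {J n : ℕ} (π : Equiv.Perm ℕ) (hπ : ∀ x, n ≤ x → π x = x) (H : List ℕ → ℝ) :
    op J n (fun l => H (l.map π)) = op J n H := by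
  induction J generalizing n H with
  | zero => rfl
  | succ J ih =>
    simp only [op, List.map_cons]
    congr 1
    · rw [Finset.sum_congr rfl fun q _ => ih hπ (fun l => H (π q :: l))]
      refine Equiv.Perm.sum_comp π (Finset.range n) (fun q => op J n fun l => H (q :: l)) ?_
      intro x hx
      simp only [Finset.coe_range, Set.mem_Iio]
      by_contra hge
      exact hx (hπ x (by omega))
    · rw [hπ n le_rfl]
      congr 1
      exact ih (fun x hx => hπ x (by omega)) (fun l => H (n :: l))

lemma le_lvl : ∀ (l : List ℕ) (n : ℕ), n ≤ lvl n l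
  | [], n => le_rfl
  | q :: l, n => by
    simp only [lvl]
    split_ifs
    · exact le_lvl l n
    · exact le_trans (Nat.le_succ n) (le_lvl l (n + 1))

/-- Insertion of `J + J'` slots in two steps. -/
lemma op_append (J J' n : ℕ) (H : List ℕ → ℝ) :
    op (J + J') n H = op J n fun l => op J' (lvl n l) fun l' => H (l ++ l') := by
  induction J generalizing n H with
  | zero => simp [op, lvl]
  | succ J ih =>
    rw [Nat.succ_add]
    simp only [op, ih]
    congr 1
    · refine Finset.sum_congr rfl fun q hq => op_congr fun l _ _ => ?_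
      simp [lvl, Finset.mem_range.1 hq]
    · congr 1
      refine op_congr fun l _ _ => ?_
      simp [lvl]

lemma ins_eq_op : ∀ (J n : ℕ) (H : List ℕ → ℝ),
    ins J n (fun g => H (List.ofFn g)) = op J n H
  | 0, n, H => by simp [ins, op]
  | J + 1, n, H => by
    simp only [ins, op, List.ofFn_cons]
    rw [ins_eq_op J (n + 1) fun l => H (n :: l)]
    congr 1
    exact Finset.sum_congr rfl fun q _ => ins_eq_op J n fun l => H (q :: l)

/-- A list of replicas placed by `op` stays below the level. -/
lemma op_congr_lvl {J n : ℕ} {H H' : List ℕ → ℝ}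
    (h : ∀ l : List ℕ, l.length = J → (∀ x ∈ l, x < lvl n l) → H l = H' l) :
    op J n H = op J n H' := by
  induction J generalizing n H H' with
  | zero => exact h [] rfl (by simp)
  | succ J ih =>
    simp only [op]
    congr 1
    · refine Finset.sum_congr rfl fun q hq => ih fun l hl hx => h (q :: l) (by simp [hl]) ?_
      intro x hxm
      have hqn := Finset.mem_range.1 hq
      simp only [lvl, hqn, if_true]
      rcases List.mem_cons.1 hxm with rfl | hxm
      · exact lt_of_lt_of_le hqn (le_lvl l n)
      · exact hx x hxm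
    · congr 1
      refine ih fun l hl hx => h (n :: l) (by simp [hl]) ?_
      intro x hxm
      simp only [lvl, lt_irrefl, if_false]
      rcases List.mem_cons.1 hxm with rfl | hxm
      · exact lt_of_lt_of_le (Nat.lt_succ_self x) (le_lvl l (x + 1))
      · exact hx x hxm

end Vale.Agent.P168.Core
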