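import Vale.Agent.P168.Core.Obs

/-! Monomials in multi-overlaps and kernels, and their gadgets. -/

open MeasureTheory Filter
open scoped BigOperators

noncomputable section

namespace Vale.Agent.P168.Core

lemma spin_sq (s : Bool) : spin s * spin s = 1 := by cases s <;> simp [spin]

lemma abs_spinProd (L : List ℕ) (i : ℕ) (ω : Arr) : |spinProd L i ω| = 1 := by
  induction L with
  | nil => simp [spinProd]
  | cons a L ih =>
    have e : spinProd (a :: L) i ω = spin (ω.1 a i) * spinProd L i ω := rfl
    rw [e, abs_mul, ih]; cases ω.1 a i <;> simp [spin]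

lemma measurable_spin : Measurable spin := measurable_of_countable _

lemma measurable_spinProd (L : List ℕ) (i : ℕ) : Measurable (spinProd L i) := by
  induction L with
  | nil =>
    show Measurable fun _ : Arr => (1 : ℝ)
    exact measurable_const
  | cons a L ih =>
    show Measurable fun ω : Arr => spin (ω.1 a i) * spinProd L i ω
    exact (measurable_spin.comp (by fun_prop : Measurable fun ω : Arr => ω.1 a i)).mul ih

lemma measurable_rset (L : List ℕ) : Measurable (rset L) :=
  Measurable.limsup fun _ => (Finset.measurable_sum _ fun i _ => measurable_spinProd L i).div_const _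

lemma abs_rset_le (L : List ℕ) (ω : Arr) : |rset L ω| ≤ 1 := by
  have h : ∀ k : ℕ, |(∑ i ∈ Finset.range (4 ^ k), spinProd L i ω) / (4 : ℝ) ^ k| ≤ 1 := by
    intro k
    rw [abs_div, abs_of_pos (by positivity : (0:ℝ) < 4 ^ k), div_le_one (by positivity)]
    refine (Finset.abs_sum_le_sum_abs _ _).trans (le_of_eq ?_)
    simp [abs_spinProd]
  have hb : IsBoundedUnder (· ≤ ·) atTop
      fun k : ℕ => (∑ i ∈ Finset.range (4 ^ k), spinProd L i ω) / (4 : ℝ) ^ k :=
    ⟨1, eventually_map.2 (Eventually.of_forall fun k => (abs_le.1 (h k)).2)⟩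
  rw [rset, abs_le]
  exact ⟨le_limsup_of_frequently_le (Frequently.of_forall fun k => (abs_le.1 (h k)).1) hb,
    limsup_le_of_le (IsCoboundedUnder.of_frequently_ge
      (Frequently.of_forall fun k => (abs_le.1 (h k)).1))
      (Eventually.of_forall fun k => (abs_le.1 (h k)).2)⟩

lemma rset_congr {L L' : List ℕ} {ω ω' : Arr}
    (h : ∀ i, spinProd L i ω = spinProd L' i ω') : rset L ω = rset L' ω' := by
  simp only [rset, h]

lemma spinProd_perm_arr (π : Equiv.Perm ℕ) (L : List ℕ) (i : ℕ) (ω : Arr) :
    spinProd (L.map π) i ω = spinProd L i (permRep π ω) := by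
  simp [spinProd, permRep, List.map_map, Function.comp_def]

lemma rset_perm_arr (π : Equiv.Perm ℕ) (L : List ℕ) (ω : Arr) :
    rset (L.map π) ω = rset L (permRep π ω) :=
  rset_congr fun i => spinProd_perm_arr π L i ω

lemma rset_data {n : ℕ} {L : List ℕ} (h : ∀ x ∈ L, x < n) {ω ω' : Arr}
    (e : repData n ω = repData n ω') : rset L ω = rset L ω' := by
  refine rset_congr fun i => ?_
  simp only [spinProd]
  congr 1
  refine List.map_congr_left fun x hx => ?_
  exact congrArg spin (congrFun (congrFun (congrArg Prod.fst e) ⟨x, h x hx⟩) i)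

lemma rset_list_perm {L L' : List ℕ} (h : L.Perm L') (ω : Arr) : rset L ω = rset L' ω :=
  rset_congr fun _ => (h.map _).prod_eq

/-- A monomial: edges are lists of slots, kernels are triples `(index, slot, slot)`. -/
def pval (E : List (List ℕ)) (Ks : List (ℕ × ℕ × ℕ)) : Obs := fun u ω =>
  (E.map fun e => rset (e.map u) ω).prod *
    (Ks.map fun k => ω.2 k.1 (u k.2.1) (u k.2.2)).prod

lemma measurable_list_prod {γ : Type*} (L : List γ) (f : γ → Arr → ℝ) (h : ∀ x, Measurable (f x)) :
    Measurable fun ω => (L.map fun x => f x ω).prod := by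
  induction L with
  | nil => simp only [List.map_nil, List.prod_nil]; exact measurable_const
  | cons a L ih => simp only [List.map_cons, List.prod_cons]; exact (h a).mul ih

lemma abs_list_prod_le {γ : Type*} (L : List γ) (f : γ → ℝ) (h : ∀ x ∈ L, |f x| ≤ 1) :
    |(L.map f).prod| ≤ 1 := by
  induction L with
  | nil => simp
  | cons a L ih =>
    simp only [List.map_cons, List.prod_cons, abs_mul]
    exact mul_le_one₀ (h a List.mem_cons_self) (abs_nonneg _)
      (ih fun x hx => h x (List.mem_cons_of_mem _ hx))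

lemma abs_pval_le {ν : Measure Arr} (hν : IsGGArray ν) (E : List (List ℕ))
    (Ks : List (ℕ × ℕ × ℕ)) : ∀ᵐ ω ∂ν, ∀ u, |pval E Ks u ω| ≤ 1 := by
  have hb : ∀ᵐ ω ∂ν, ∀ g a b, |ω.2 g a b| ≤ 1 :=
    ae_all_iff.2 fun g => ae_all_iff.2 fun a => ae_all_iff.2 fun b => hν.bound g a b
  filter_upwards [hb] with ω hω u
  rw [pval, abs_mul]
  exact mul_le_one₀ (abs_list_prod_le _ _ fun e _ => abs_rset_le _ _) (abs_nonneg _)
    (abs_list_prod_le _ _ fun k _ => hω _ _ _)

lemma measurable_pval (E : List (List ℕ)) (Ks : List (ℕ × ℕ × ℕ)) (u : ℕ → ℕ) :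
    Measurable (pval E Ks u) :=
  (measurable_list_prod E (fun e ω => rset (e.map u) ω) fun e => measurable_rset _).mul
    (measurable_list_prod Ks (fun k ω => ω.2 k.1 (u k.2.1) (u k.2.2)) fun k => by fun_prop)

lemma isObs_pval {ν : Measure Arr} (hν : IsGGArray ν) {J : ℕ} {E : List (List ℕ)}
    {Ks : List (ℕ × ℕ × ℕ)} (hE : ∀ e ∈ E, ∀ x ∈ e, x < 2 + J)
    (hK : ∀ k ∈ Ks, k.2.1 < 2 + J ∧ k.2.2 < 2 + J) : IsObs ν J (pval E Ks) := by
  refine ⟨measurable_pval E Ks, fun π u ω => ?_, fun n u hu ω ω' e => ?_, fun u u' h => ?_,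
    1, zero_le_one, fun u => ?_⟩
  · simp only [pval, ← List.map_map, rset_perm_arr]
    rfl
  · simp only [pval]
    congr 2
    · refine List.map_congr_left fun ee hee => rset_data ?_ e
      intro x hx
      obtain ⟨y, hy, rfl⟩ := List.mem_map.1 hx
      exact hu y (hE ee hee y hy)
    · refine List.map_congr_left fun k hk => ?_
      exact congrFun (congrFun (congrFun (congrArg Prod.snd e) k.1)
        ⟨u k.2.1, hu _ (hK k hk).1⟩) ⟨u k.2.2, hu _ (hK k hk).2⟩
  · funext ω
    simp only [pval]
    congr 2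
    · refine List.map_congr_left fun ee hee => ?_
      rw [List.map_congr_left fun x hx => h x (hE ee hee x hx)]
    · refine List.map_congr_left fun k hk => ?_
      rw [h _ (hK k hk).1, h _ (hK k hk).2]
  · filter_upwards [abs_pval_le hν E Ks] with ω hω using hω u

/-- The labels used an odd number of times by an edge. -/
def labels (J : ℕ) (e : List ℕ) : Finset (Fin J) :=
  Finset.univ.filter fun a => Odd (e.count (2 + a.val))

/-- The gadget of a monomial. -/
def gadgetOf (J : ℕ) (E : List (List ℕ)) (b : Fin J → ℚ) : Gadget :=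
  ⟨J, E.map fun e => (labels J e, decide (Odd (e.count 0)), decide (Odd (e.count 1))), b⟩

lemma pl_two_add (l : List ℕ) (a : ℕ) : pl l (2 + a) = l.getD a 0 := by
  simp [pl, add_comm 2 a]

lemma prod_map_parity (f : ℕ → ℝ) (hf : ∀ x, f x * f x = 1) (e : List ℕ) {N : ℕ}
    (h : ∀ x ∈ e, x < N) :
    (e.map f).prod = ∏ x ∈ Finset.range N, if Odd (e.count x) then f x else 1 := by
  rw [Finset.prod_list_map_count]
  rw [Finset.prod_subset (s₂ := Finset.range N) (fun x hx => Finset.mem_range.2
    (h x (List.mem_toFinset.1 hx))) (fun x _ hx => by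
      rw [List.mem_toFinset] at hx
      simp [List.count_eq_zero_of_not_mem hx])]
  refine Finset.prod_congr rfl fun x _ => ?_
  have h2 : f x ^ 2 = 1 := by rw [sq]; exact hf x
  rcases Nat.even_or_odd (e.count x) with hc | hc
  · obtain ⟨k, hk⟩ := hc
    rw [if_neg (Nat.not_odd_iff_even.2 ⟨k, hk⟩), hk, ← two_mul, pow_mul, h2, one_pow]
  · obtain ⟨k, hk⟩ := hc
    rw [if_pos ⟨k, hk⟩, hk, pow_succ, pow_mul, h2, one_pow, one_mul]

lemma prod_range_two_add {M : Type*} [CommMonoid M] (J : ℕ) (f : ℕ → M) :
    ∏ x ∈ Finset.range (2 + J), f x = f 0 * f 1 * ∏ a : Fin J, f (2 + a.val) := by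
  rw [Finset.prod_range_add, Finset.prod_range_succ, Finset.prod_range_one,
    Fin.prod_univ_eq_prod_range (fun a => f (2 + a))]

lemma spinProd_edgeReps {J : ℕ} {e : List ℕ} (he : ∀ x ∈ e, x < 2 + J)
    (σ : Equiv.Perm (Fin J)) (a : Fin J → Fin J) (ha : ∀ i, a i = σ i) (u v : Bool) (hne : u ≠ v)
    (g : Fin J → ℕ) (i : ℕ) (ω : Arr) :
    spinProd (edgeReps (labels J e, decide (Odd (e.count 0)), decide (Odd (e.count 1))) a 0 1 u v g)
        i ω =
      spinProd (e.map fun x => pl (reidx σ⁻¹ (List.ofFn g)) (if u then Equiv.swap 0 1 x else x))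
        i ω := by
  set f : ℕ → ℝ := fun y => spin (ω.1 y i)
  have hf : ∀ y, f y * f y = 1 := fun y => spin_sq _
  set w : ℕ → ℕ := fun x => pl (reidx σ⁻¹ (List.ofFn g)) (if u then Equiv.swap 0 1 x else x)
  have hR : spinProd (e.map w) i ω =
      ∏ x ∈ Finset.range (2 + J), if Odd (e.count x) then f (w x) else 1 := by
    rw [spinProd, List.map_map]
    exact prod_map_parity (fun x => f (w x)) (fun x => hf _) e he
  have hlab : ∀ a' : Fin J, w (2 + a'.val) = g (σ⁻¹ a') := by
    intro a'
    have hsw : (if u then Equiv.swap 0 1 (2 + a'.val) else 2 + a'.val) = 2 + a'.val := by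
      cases u
      · simp
      · simp only [if_true]
        exact Equiv.swap_apply_of_ne_of_ne (by omega) (by omega)
    simp only [w, hsw, pl_two_add, reidx]
    rw [List.getD_eq_getElem _ _ (by simp), List.getElem_ofFn,
      List.getD_eq_getElem _ _ (by simp), List.getElem_ofFn]
  have hlabels : ((((List.finRange J).filter fun j => a j ∈ labels J e).map g).map f).prod =
      ∏ a' : Fin J, if Odd (e.count (2 + a'.val)) then f (g (σ⁻¹ a')) else 1 := by
    rw [List.map_map, ← List.prod_toFinset _ ((List.nodup_finRange J).filter _)]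
    rw [show ((List.finRange J).filter fun j => decide (a j ∈ labels J e)).toFinset =
      Finset.univ.filter fun j => σ j ∈ labels J e by ext j; simp [ha]]
    rw [Finset.prod_filter, ← Equiv.prod_comp σ fun a' =>
      if Odd (e.count (2 + a'.val)) then f (g (σ⁻¹ a')) else 1]
    refine Finset.prod_congr rfl fun j _ => ?_
    simp [labels]
  rw [hR, prod_range_two_add]
  simp only [hlab]
  rw [← hlabels]
  cases u <;> cases v <;>
    first
    | exact absurd rfl hne
    | (by_cases h0 : Odd (e.count 0) <;> by_cases h1 : Odd (e.count 1) <;>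
        simp [spinProd, edgeReps, h0, h1, w, f, pl, mul_assoc, mul_left_comm])

/-- The odd part of the gadget value is the symmetrised monomial. -/
lemma gadget_cross {J : ℕ} {E : List (List ℕ)} (hE : ∀ e ∈ E, ∀ x ∈ e, x < 2 + J)
    (b : Fin J → ℚ) (σ : Equiv.Perm (Fin J)) (g : Fin J → ℕ) (ω : Arr) :
    gadgetValue (gadgetOf J E b) true (J := J) (fun i => σ i) 0 1 g ω -
        gadgetValue (gadgetOf J E b) false (J := J) (fun i => σ i) 0 1 g ω =
      (pval E [] (pl (reidx σ⁻¹ (List.ofFn g))) ω +
        pval E [] (fun x => pl (reidx σ⁻¹ (List.ofFn g)) (Equiv.swap 0 1 x)) ω) / 2 := by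
  have key : ∀ u v : Bool, u ≠ v →
      ((gadgetOf J E b).2.1.map fun e => rset (edgeReps e (fun i => σ i) 0 1 u v g) ω).prod =
        pval E [] (fun x => pl (reidx σ⁻¹ (List.ofFn g)) (if u then Equiv.swap 0 1 x else x)) ω := by
    intro u v huv
    simp only [pval, List.map_nil, List.prod_nil, mul_one]
    show ((E.map _).map _).prod = _
    rw [List.map_map]
    congr 1
    refine List.map_congr_left fun e he => ?_
    exact rset_congr fun i => spinProd_edgeReps (hE e he) σ _ (fun _ => rfl) u v huv g i ω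
  have k1 := key false true (by decide)
  have k2 := key true false (by decide)
  simp only [Bool.false_eq_true, if_false, if_true] at k1 k2
  simp only [gadgetValue, Fintype.sum_bool, spin, Bool.false_eq_true, if_false, if_true]
  erw [k1, k2]
  ring

end Vale.Agent.P168.Core
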