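import Vale.Agent.P168.Core.Nest
import Mathlib.Topology.ContinuousMap.StoneWeierstrass

/-! Continuous functions of the overlap matrix of the slots as multipliers of good observables. -/

open MeasureTheory Filter
open scoped BigOperators Topology

noncomputable section

namespace Vale.Agent.P168.Core

/-- Measurable and a.e. bounded observables. -/
def BddObs (ν : Measure Arr) (X : Obs) : Prop :=
  (∀ u, Measurable (X u)) ∧ ∃ B, ∀ u, ∀ᵐ ω ∂ν, |X u ω| ≤ B

lemma BddObs.lin {ν : Measure Arr} {X Y : Obs} (hX : BddObs ν X) (hY : BddObs ν Y) (a b : ℝ) :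
    BddObs ν fun u ω => a * X u ω + b * Y u ω := by
  obtain ⟨hXm, B, hB⟩ := hX
  obtain ⟨hYm, B', hB'⟩ := hY
  refine ⟨fun u => ((hXm u).const_mul a).add ((hYm u).const_mul b), |a| * B + |b| * B', fun u => ?_⟩
  filter_upwards [hB u, hB' u] with ω h1 h2
  refine (abs_add_le _ _).trans (add_le_add ?_ ?_) <;> rw [abs_mul] <;> gcongr

lemma BddObs.integrable_ins {ν : Measure Arr} [IsFiniteMeasure ν] {X : Obs} (hX : BddObs ν X)
    {n J : ℕ} {F : Arr → ℝ} (hF : TestFn ν n F) :
    Integrable (fun ω => F ω * op J n fun l => ofObs (sym X) l ω) ν := by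
  obtain ⟨C, hC0, hC⟩ := hF.bdd
  obtain ⟨hm, B, hB⟩ := hX
  refine integrable_mul_op (n := n) (D := B) hF.meas hC
    (fun l => ((hm _).add (hm _)).div_const 2) fun l => ?_
  filter_upwards [hB (pl l), hB fun x => pl l (Equiv.swap 0 1 x)] with ω h1 h2
  simp only [ofObs, sym]
  rw [abs_div, abs_two, div_le_iff₀ two_pos]
  exact (abs_add_le _ _).trans (by linarith)

lemma EI_lin {ν : Measure Arr} [IsFiniteMeasure ν] {X Y : Obs} (hX : BddObs ν X) (hY : BddObs ν Y)
    (a b : ℝ) {n J : ℕ} {F : Arr → ℝ} (hF : TestFn ν n F) :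
    EI ν n F J (fun u ω => a * X u ω + b * Y u ω) = a * EI ν n F J X + b * EI ν n F J Y := by
  unfold EI lEI
  rw [← integral_const_mul, ← integral_const_mul,
    ← integral_add ((hX.integrable_ins hF).const_mul a) ((hY.integrable_ins hF).const_mul b)]
  refine integral_congr_ae (Eventually.of_forall fun ω => ?_)
  show F ω * op J n _ = a * (F ω * op J n _) + b * (F ω * op J n _)
  rw [mul_left_comm a, mul_left_comm b, ← mul_add, ← op_smul J n a, ← op_smul J n b, ← op_add]
  congr 1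
  refine op_congr fun l _ _ => ?_
  simp only [ofObs, sym]
  ring

lemma good_lin {ν : Measure Arr} {ρ : ℝ} (ht : IsTreeArray ν ρ) {J : ℕ} {X Y : Obs}
    (hX : BddObs ν X) (hY : BddObs ν Y) (gX : Good ν J X) (gY : Good ν J Y) (a b : ℝ) :
    Good ν J fun u ω => a * X u ω + b * Y u ω := by
  haveI := ht.prob
  obtain ⟨c, hc, hc2⟩ := gX
  obtain ⟨c', hc', hc2'⟩ := gY
  refine ⟨fun q => a * c q + b * c' q, by fun_prop, fun n F hn hF => ?_⟩
  rw [EI_lin hX hY a b hF, hc2 n F hn hF, hc2' n F hn hF, ← integral_const_mul,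
    ← integral_const_mul, ← integral_add ((integrable_mul_cont ht hF hc 0 1).const_mul a)
      ((integrable_mul_cont ht hF hc' 0 1).const_mul b)]
  exact integral_congr_ae (Eventually.of_forall fun ω => by ring)

/-- Goodness passes to uniform limits. -/
lemma good_limit {ν : Measure Arr} {ρ : ℝ} (ht : IsTreeArray ν ρ) {J : ℕ} {Y : Obs}
    (X : ℕ → Obs) (hX : ∀ k, BddObs ν (X k)) (hY : BddObs ν Y) (gX : ∀ k, Good ν J (X k))
    (δ : ℕ → ℝ) (hδ : Tendsto δ atTop (𝓝 0)) (h : ∀ k u, ∀ᵐ ω ∂ν, |Y u ω - X k u ω| ≤ δ k) :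
    Good ν J Y := by
  haveI := ht.prob
  choose c hc hc2 using gX
  refine good_of_approx ht c hc (fun n k => wgt J n * δ k) (fun n _ => ?_) fun k n F hn hF => ?_
  · simpa using hδ.const_mul (wgt J n)
  · rw [← hc2 k n F hn hF]
    have h1 := abs_EI_le (J := J) hF (X := fun u ω => 1 * Y u ω + (-1) * X k u ω) (B := δ k)
      fun u => (h k u).mono fun ω hω => by simpa [← sub_eq_add_neg] using hω
    rw [EI_lin hY (hX k) 1 (-1) hF] at h1
    rw [abs_sub_comm]
    simpa [← sub_eq_add_neg] using h1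

/-- A monomial times a function of the overlap matrix of the first slots. -/
def mObs (d : ℕ) (φ : Mat (2 + d) → ℝ) (E : List (List ℕ)) (Ks : List (ℕ × ℕ × ℕ)) : Obs :=
  fun u ω => φ (tmat (fun i : Fin (2 + d) => u i.val) ω) * pval E Ks u ω

/-- The multipliers preserving goodness. -/
def GoodMul (ν : Measure Arr) (d : ℕ) (φ : Mat (2 + d) → ℝ) : Prop :=
  ∀ (E : List (List ℕ)) (Ks : List (ℕ × ℕ × ℕ)), (∀ e ∈ E, ∀ x ∈ e, x < 2 + d) →
    (∀ k ∈ Ks, k.2.1 < 2 + d ∧ k.2.2 < 2 + d) → Good ν d (mObs d φ E Ks)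

lemma measurable_tmat {n : ℕ} (u : Fin n → ℕ) : Measurable (tmat u) :=
  measurable_pi_lambda _ fun _ => measurable_pi_lambda _ fun _ => measurable_rbar _ _

/-- The cube containing the overlap matrices. -/
def cube (d : ℕ) (ρ : ℝ) : Set (Mat d) :=
  Set.pi Set.univ fun _ => Set.pi Set.univ fun _ => Set.Icc (-ρ) ρ

lemma isCompact_cube (d : ℕ) (ρ : ℝ) : IsCompact (cube d ρ) :=
  isCompact_univ_pi fun _ => isCompact_univ_pi fun _ => isCompact_Icc

lemma ae_tmat_mem {ν : Measure Arr} {ρ : ℝ} (ht : IsTreeArray ν ρ) {n : ℕ} (u : Fin n → ℕ) :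
    ∀ᵐ ω ∂ν, tmat u ω ∈ cube n ρ := by
  filter_upwards [ae_all_iff.2 fun a => ae_all_iff.2 fun b => ht.rbar_le (u a) (u b)] with ω hω
  simp only [cube, Set.mem_univ_pi]
  exact fun a b => ⟨(abs_le.1 (hω a b)).1, (abs_le.1 (hω a b)).2⟩

lemma bddObs_mObs {ν : Measure Arr} {ρ : ℝ} (ht : IsTreeArray ν ρ) {d : ℕ} {φ : Mat (2 + d) → ℝ}
    (hφ : Continuous φ) (E : List (List ℕ)) (Ks : List (ℕ × ℕ × ℕ)) :
    BddObs ν (mObs d φ E Ks) := by
  obtain ⟨B, hB⟩ := (isCompact_cube (2 + d) ρ).exists_bound_of_continuousOn hφ.continuousOn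
  refine ⟨fun u => (hφ.measurable.comp (measurable_tmat _)).mul (measurable_pval _ _ _),
    max B 0, fun u => ?_⟩
  filter_upwards [ae_tmat_mem ht (fun i : Fin (2 + d) => u i.val),
    abs_pval_le ht.toIsGGArray E Ks] with ω h1 h2
  rw [mObs, abs_mul]
  exact (mul_le_mul ((hB _ h1).trans (le_max_left _ 0)) (h2 u) (abs_nonneg _)
    (le_max_right _ _)).trans_eq (mul_one _)

lemma ae_rbar_partial {ν : Measure Arr} (hν : IsGGArray ν) (k a b : ℕ) :
    ∀ᵐ ω ∂ν, |rbar a b ω - ∑ g ∈ Finset.range k, kWeight g * ω.2 g a b| ≤ (1 / 2) ^ k := by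
  filter_upwards [ae_all_iff.2 fun g => hν.bound g a b] with ω hω
  have hb : ∀ g, ‖kWeight g * ω.2 g a b‖ ≤ (1 / 2 : ℝ) ^ (g + 1) := fun g => by
    rw [Real.norm_eq_abs, abs_mul, kWeight, abs_of_nonneg (by positivity)]
    exact mul_le_of_le_one_right (by positivity) (hω g)
  have hgeo : HasSum (fun m : ℕ => (1 / 2 : ℝ) ^ (k + 1) * (1 / 2) ^ m) ((1 / 2) ^ k) := by
    have h := hasSum_geometric_two.mul_left ((1 / 2 : ℝ) ^ (k + 1))
    rwa [show (1 / 2 : ℝ) ^ (k + 1) * 2 = (1 / 2) ^ k by rw [pow_succ]; ring] at h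
  have hs : Summable fun g => kWeight g * ω.2 g a b := by
    refine Summable.of_norm_bounded ?_ hb
    exact (summable_geometric_of_lt_one (by norm_num) (by norm_num : (1 / 2 : ℝ) < 1)).comp_injective
      (add_left_injective 1)
  have h := (hasSum_nat_add_iff' k).2 hs.hasSum
  have h2 := tsum_of_norm_bounded hgeo (f := fun m => kWeight (m + k) * ω.2 (m + k) a b)
    fun m => (hb (m + k)).trans_eq (by rw [← pow_add]; congr 1; omega)
  rwa [h.tsum_eq, Real.norm_eq_abs] at h2

lemma goodMul_coord {ν : Measure Arr} {ρ : ℝ} (ht : IsTreeArray ν ρ) {d : ℕ}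
    {φ : Mat (2 + d) → ℝ} (hφ : Continuous φ) (h : GoodMul ν d φ) (i j : Fin (2 + d)) :
    GoodMul ν d fun T => φ T * T i j := by
  intro E Ks hE hK
  obtain ⟨B, hB⟩ := (isCompact_cube (2 + d) ρ).exists_bound_of_continuousOn hφ.continuousOn
  set X : ℕ → Obs := fun k u ω => ∑ g ∈ Finset.range k,
    kWeight g * mObs d φ E ((g, i.val, j.val) :: Ks) u ω with hXdef
  have hX : ∀ k, BddObs ν (X k) ∧ Good ν d (X k) := by
    intro k
    induction k with
    | zero =>
      refine ⟨⟨fun u => ?_, 0, fun u => ?_⟩, ?_⟩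
      · simp only [hXdef, Finset.range_zero, Finset.sum_empty]; exact measurable_const
      · simp [hXdef]
      · simpa [hXdef] using good_zero ν d
    | succ k ih =>
      have e : X (k + 1) = fun u ω =>
          1 * X k u ω + kWeight k * mObs d φ E ((k, i.val, j.val) :: Ks) u ω := by
        funext u ω
        simp [hXdef, Finset.sum_range_succ]
      have hK' : ∀ q ∈ (k, i.val, j.val) :: Ks, q.2.1 < 2 + d ∧ q.2.2 < 2 + d := fun q hq => by
        rcases List.mem_cons.1 hq with rfl | hq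
        · exact ⟨i.isLt, j.isLt⟩
        · exact hK q hq
      rw [e]
      exact ⟨ih.1.lin (bddObs_mObs ht hφ _ _) _ _,
        good_lin ht ih.1 (bddObs_mObs ht hφ _ _) ih.2 (h _ _ hE hK') _ _⟩
  refine good_limit ht X (fun k => (hX k).1) (bddObs_mObs ht (by fun_prop) E Ks)
    (fun k => (hX k).2) (fun k => max B 0 * (1 / 2) ^ k) ?_ fun k u => ?_
  · simpa using (tendsto_pow_atTop_nhds_zero_of_lt_one (by norm_num : (0:ℝ) ≤ 1 / 2)
      (by norm_num)).const_mul (max B 0)
  filter_upwards [ae_tmat_mem ht (fun i : Fin (2 + d) => u i.val),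
    abs_pval_le ht.toIsGGArray E Ks, ae_rbar_partial ht.toIsGGArray k (u i.val) (u j.val)]
    with ω h1 h2 h3
  have e : mObs d (fun T => φ T * T i j) E Ks u ω - X k u ω =
      φ (tmat (fun i : Fin (2 + d) => u i.val) ω) * pval E Ks u ω *
        (rbar (u i.val) (u j.val) ω - ∑ g ∈ Finset.range k, kWeight g * ω.2 g (u i.val) (u j.val)) := by
    simp only [hXdef, mObs, pval_cons, mul_sub, Finset.mul_sum, tmat]
    congr 1
    · ring
    · exact Finset.sum_congr rfl fun g _ => by ring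
  rw [e, abs_mul, abs_mul]
  refine mul_le_mul ((mul_le_mul ((hB _ h1).trans (le_max_left _ 0)) (h2 u) (abs_nonneg _)
    (le_max_right _ _)).trans_eq (mul_one _)) h3 (abs_nonneg _) (le_max_right _ _)

/-- Every continuous function of the overlap matrix of the slots is a multiplier. -/
theorem goodMul_continuous {ν : Measure Arr} {ρ : ℝ} (hg : IsGadgetArray ν)
    (ht : IsTreeArray ν ρ) {d : ℕ} {φ : Mat (2 + d) → ℝ} (hφ : Continuous φ) :
    GoodMul ν d φ := by
  have hconst : ∀ r : ℝ, GoodMul ν d fun _ => r := by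
    intro r E Ks hE hK
    have hb : BddObs ν (pval E Ks) :=
      ⟨measurable_pval E Ks, 1, fun u => (abs_pval_le ht.toIsGGArray E Ks).mono fun ω hω => hω u⟩
    have := good_lin ht hb hb (good_pval hg ht Ks d E hE hK) (good_pval hg ht Ks d E hE hK) r 0
    refine good_congr (fun u => Eventually.of_forall fun ω => ?_) this
    simp [mObs]
  let coord : Fin (2 + d) × Fin (2 + d) → C(Mat (2 + d), ℝ) := fun p =>
    ⟨fun T => T p.1 p.2, by fun_prop⟩
  let A : Subalgebra ℝ C(Mat (2 + d), ℝ) := Algebra.adjoin ℝ (Set.range coord)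
  have hA : ∀ p ∈ A, ∀ q : C(Mat (2 + d), ℝ), GoodMul ν d q → GoodMul ν d fun T => q T * p T := by
    intro p hp
    induction hp using Algebra.adjoin_induction with
    | mem x hx =>
      obtain ⟨⟨i, j⟩, rfl⟩ := hx
      exact fun q hq => goodMul_coord ht q.continuous hq i j
    | algebraMap r =>
      intro q hq E Ks hE hK
      have := good_lin ht (bddObs_mObs ht q.continuous E Ks) (bddObs_mObs ht q.continuous E Ks)
        (hq E Ks hE hK) (hq E Ks hE hK) r 0
      refine good_congr (fun u => Eventually.of_forall fun ω => ?_) this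
      show q _ * r * _ = r * (q _ * _) + 0 * (q _ * _)
      ring
    | add x y hx hy ihx ihy =>
      intro q hq E Ks hE hK
      have := good_lin ht (bddObs_mObs ht (φ := fun T => q T * x T) (by fun_prop) E Ks)
        (bddObs_mObs ht (φ := fun T => q T * y T) (by fun_prop) E Ks)
        (ihx q hq E Ks hE hK) (ihy q hq E Ks hE hK) 1 1
      refine good_congr (fun u => Eventually.of_forall fun ω => ?_) this
      show q _ * (x _ + y _) * _ = 1 * (q _ * x _ * _) + 1 * (q _ * y _ * _)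
      ring
    | mul x y hx hy ihx ihy =>
      intro q hq
      have := ihy (q * x) (ihx q hq)
      simpa [mul_assoc] using this
  intro E Ks hE hK
  have hsep : A.SeparatesPoints := by
    intro S T hST
    obtain ⟨i, hi⟩ := Function.ne_iff.1 hST
    obtain ⟨j, hj⟩ := Function.ne_iff.1 hi
    exact ⟨_, ⟨coord (i, j), Algebra.subset_adjoin ⟨(i, j), rfl⟩, rfl⟩, hj⟩
  have happ : ∀ k : ℕ, ∃ g ∈ A, ∀ T ∈ cube (2 + d) ρ, ‖g T - φ T‖ < 1 / ((k : ℝ) + 1) := fun k =>
    ContinuousMap.exists_mem_subalgebra_near_continuous_of_isCompact_of_separatesPoints hsep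
      ⟨φ, hφ⟩ (isCompact_cube _ _) (by positivity)
  choose p hpA hp using happ
  have hpgood : ∀ k, GoodMul ν d (p k) := fun k => by
    simpa using hA (p k) (hpA k) 1 (hconst 1)
  refine good_limit ht (fun k => mObs d (p k) E Ks)
    (fun k => bddObs_mObs ht (p k).continuous E Ks) (bddObs_mObs ht hφ E Ks)
    (fun k => hpgood k E Ks hE hK) (fun k => 1 / ((k : ℝ) + 1))
    tendsto_one_div_add_atTop_nhds_zero_nat fun k u => ?_
  filter_upwards [ae_tmat_mem ht (fun i : Fin (2 + d) => u i.val),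
    abs_pval_le ht.toIsGGArray E Ks] with ω h1 h2
  simp only [mObs]
  rw [← sub_mul, abs_mul, abs_sub_comm, ← Real.norm_eq_abs (_ - _)]
  exact (mul_le_mul (hp k _ h1).le (h2 u) (abs_nonneg _) (by positivity)).trans_eq (mul_one _)

end Vale.Agent.P168.Core
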