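import Vale.Agent.P168.Core.Loc

/-! The variance identity: the field `var_id`. -/

open MeasureTheory ProbabilityTheory Filter
open scoped BigOperators Topology ENNReal NNReal

noncomputable section

namespace Vale.Agent.P168.Core

/-- A bound on all set integrals bounds the integral against every test function. -/
lemma abs_integral_le_of_sets {α β : Type*} [MeasurableSpace α] [MeasurableSpace β]
    {ν : Measure α} [IsProbabilityMeasure ν] {T : α → β} (hT : Measurable T) {D : α → ℝ}
    (hD : Integrable D ν) {ε : ℝ}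
    (h : ∀ E, MeasurableSet E → |∫ a in T ⁻¹' E, D a ∂ν| ≤ ε * ν.real (T ⁻¹' E)) {G : β → ℝ}
    (hG : Measurable G) (hGb : ∀ b, |G b| ≤ 1) : |∫ a, G (T a) * D a ∂ν| ≤ ε := by
  have hε : 0 ≤ ε := by
    have := (abs_nonneg _).trans (h Set.univ MeasurableSet.univ)
    simpa using this
  suffices hN : ∀ N : ℕ, 0 < N → |∫ a, G (T a) * D a ∂ν| ≤ ε + (∫ a, |D a| ∂ν) / N by
    have hlim : Tendsto (fun N : ℕ => ε + (∫ a, |D a| ∂ν) / N) atTop (𝓝 ε) := by
      simpa using (tendsto_const_div_atTop_nhds_zero_nat (∫ a, |D a| ∂ν)).const_add ε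
    exact ge_of_tendsto hlim ((eventually_gt_atTop 0).mono hN)
  intro N hN
  have hNr : (0 : ℝ) < N := by exact_mod_cast hN
  set j : β → ℤ := fun b => ⌊G b * N⌋
  have hjm : Measurable j := Int.measurable_floor.comp (hG.mul_const _)
  set s : Finset ℤ := Finset.Icc (-(N : ℤ)) N
  have hjs : ∀ b, j b ∈ s := by
    intro b
    have hb := abs_le.1 (hGb b)
    rw [Finset.mem_Icc]
    constructor
    · rw [Int.le_floor]; push_cast; nlinarith [hb.1]
    · have h1 : ((j b : ℤ) : ℝ) ≤ (N : ℝ) := (Int.floor_le _).trans (by nlinarith [hb.2])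
      exact_mod_cast h1
  have happ : ∀ b, |G b - (j b : ℝ) / N| ≤ 1 / N := by
    intro b
    rw [show G b - (j b : ℝ) / N = (G b * N - (j b : ℝ)) / N by field_simp, abs_div,
      abs_of_pos hNr, div_le_div_iff_of_pos_right hNr, abs_le]
    constructor <;> linarith [Int.floor_le (G b * N), Int.lt_floor_add_one (G b * N)]
  have hmeasE : ∀ i, MeasurableSet (j ⁻¹' {i}) := fun i => hjm (measurableSet_singleton i)
  set P : α → ℝ := fun a => ∑ i ∈ s, ((i : ℝ) / N) * (T ⁻¹' (j ⁻¹' {i})).indicator D a with hP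
  have hPi : Integrable P ν :=
    integrable_finsetSum _ fun i _ => (hD.indicator (hT (hmeasE i))).const_mul _
  have hPeq : ∀ a, P a = (j (T a) : ℝ) / N * D a := by
    intro a
    rw [hP]
    dsimp only
    rw [Finset.sum_eq_single (j (T a)) (fun i _ hne => ?_) (fun hn => absurd (hjs _) hn)]
    · rw [Set.indicator_of_mem]
      show j (T a) ∈ ({j (T a)} : Set ℤ)
      rfl
    · rw [Set.indicator_of_notMem, mul_zero]
      exact fun hm => hne (Eq.symm hm)
  have hPint : |∫ a, P a ∂ν| ≤ ε := by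
    rw [hP, integral_finsetSum _ fun i _ => (hD.indicator (hT (hmeasE i))).const_mul _]
    refine (Finset.abs_sum_le_sum_abs _ _).trans ?_
    calc ∑ i ∈ s, |∫ a, ((i : ℝ) / N) * (T ⁻¹' (j ⁻¹' {i})).indicator D a ∂ν|
        ≤ ∑ i ∈ s, 1 * (ε * ν.real (T ⁻¹' (j ⁻¹' {i}))) := by
          refine Finset.sum_le_sum fun i hi => ?_
          rw [integral_const_mul, integral_indicator (hT (hmeasE i)), abs_mul]
          refine mul_le_mul ?_ (h _ (hmeasE i)) (abs_nonneg _) zero_le_one
          rw [abs_div, abs_of_pos hNr, div_le_one hNr, abs_le]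
          rw [Finset.mem_Icc] at hi
          constructor <;> [exact_mod_cast hi.1; exact_mod_cast hi.2]
      _ = ε * ν.real ((j ∘ T) ⁻¹' (s : Set ℤ)) := by
          rw [← sum_measureReal_preimage_singleton s fun i _ =>
            (hjm.comp hT) (measurableSet_singleton i), Finset.mul_sum]
          exact Finset.sum_congr rfl fun i _ => one_mul _
      _ ≤ ε := mul_le_of_le_one_right hε measureReal_le_one
  have hGD : Integrable (fun a => G (T a) * D a) ν :=
    hD.bdd_mul (hG.comp hT).aestronglyMeasurable (Eventually.of_forall fun a => hGb _)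
  have hdiff : |∫ a, (G (T a) * D a - P a) ∂ν| ≤ (∫ a, |D a| ∂ν) / N := by
    rw [← integral_div]
    refine abs_integral_le_integral_abs.trans (integral_mono_of_nonneg
      (Eventually.of_forall fun _ => abs_nonneg _) (hD.abs.div_const _)
      (Eventually.of_forall fun a => ?_))
    show |G (T a) * D a - P a| ≤ |D a| / N
    rw [hPeq, ← sub_mul, abs_mul, div_eq_mul_inv |D a|, mul_comm |D a|, ← one_div]
    exact mul_le_mul_of_nonneg_right (happ _) (abs_nonneg _)
  rw [integral_sub hGD hPi] at hdiff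
  linarith [abs_sub_abs_le_abs_sub (∫ a, G (T a) * D a ∂ν) (∫ a, P a ∂ν)]

/-- A vanishing combination of finite measures on a π-system kills bounded functions. -/
lemma comb_eq_zero {α ι : Type*} {mα : MeasurableSpace α} [Fintype ι] (m : ι → Measure α)
    [∀ i, IsFiniteMeasure (m i)] (c : ι → ℝ) (C : Set (Set α))
    (hgen : mα = MeasurableSpace.generateFrom C) (hpi : IsPiSystem C) (huniv : Set.univ ∈ C)
    (h : ∀ s ∈ C, ∑ i, c i * (m i).real s = 0) {V : α → ℝ} (hV : Measurable V) {B : ℝ}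
    (hVb : ∀ x, |V x| ≤ B) : ∑ i, c i * ∫ x, V x ∂m i = 0 := by
  set P : Measure α := ∑ i, (c i).toNNReal • m i with hP
  set Q : Measure α := ∑ i, (-c i).toNNReal • m i with hQ
  haveI : IsFiniteMeasure P := by rw [hP]; infer_instance
  haveI : IsFiniteMeasure Q := by rw [hQ]; infer_instance
  have hc : ∀ i, ((c i).toNNReal : ℝ) - ((-c i).toNNReal : ℝ) = c i := fun i => by
    simp only [Real.coe_toNNReal', max_zero_sub_max_neg_zero_eq_self]
  have hreal : ∀ (e : ι → ℝ≥0) (s : Set α),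
      (∑ i, e i • m i).real s = ∑ i, (e i : ℝ) * (m i).real s := by
    intro e s
    simp only [measureReal_def, Measure.coe_finsetSum, Finset.sum_apply, Measure.smul_apply,
      ENNReal.smul_def, smul_eq_mul]
    rw [ENNReal.toReal_sum fun i _ => ENNReal.mul_ne_top ENNReal.coe_ne_top (measure_ne_top _ _)]
    simp [ENNReal.toReal_mul]
  have hPQ : ∀ s ∈ C, P s = Q s := by
    intro s hs
    rw [← ENNReal.toReal_eq_toReal_iff' (measure_ne_top _ _) (measure_ne_top _ _)]
    show P.real s = Q.real s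
    rw [hP, hQ, hreal, hreal, ← sub_eq_zero, ← Finset.sum_sub_distrib]
    simp only [← sub_mul, hc]
    exact h s hs
  have hPQ' : P = Q := ext_of_generate_finite C hgen hpi hPQ (hPQ _ huniv)
  have hint : ∀ i (e : ℝ≥0), Integrable V (e • m i) := fun i e =>
    Integrable.mono' (integrable_const B) hV.aestronglyMeasurable
      (Eventually.of_forall fun x => hVb x)
  have e1 : ∀ e : ι → ℝ≥0, ∫ x, V x ∂(∑ i, e i • m i) = ∑ i, (e i : ℝ) * ∫ x, V x ∂m i := by
    intro e
    rw [integral_finsetSum_measure fun i _ => hint i (e i)]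
    refine Finset.sum_congr rfl fun i _ => ?_
    rw [integral_smul_nnreal_measure, NNReal.smul_def, smul_eq_mul]
  calc ∑ i, c i * ∫ x, V x ∂m i
      = ∑ i, (((c i).toNNReal : ℝ) - ((-c i).toNNReal : ℝ)) * ∫ x, V x ∂m i := by simp only [hc]
    _ = ∫ x, V x ∂P - ∫ x, V x ∂Q := by
        rw [hP, hQ, e1, e1, ← Finset.sum_sub_distrib]
        exact Finset.sum_congr rfl fun i _ => sub_mul _ _ _
    _ = 0 := by rw [hPQ', sub_self]

/-- Exchanging the pins composed with a symmetry only relabels the insertions. -/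
lemma exists_relabel {ν : Measure Arr} {d : ℕ} {I : Set (Mat (2 + d))}
    {π : Equiv.Perm (Fin (2 + d))} (hpin : ∀ i, (π i).val < 2 ↔ i.val < 2)
    (hmove : ∀ i, i.val < 2 → π i ≠ i) (hinv : ∀ T, T ∈ I ↔ (fun a b => T (π a) (π b)) ∈ I) :
    ∃ σ : Equiv.Perm (Fin d), ∀ l : List ℕ, l.length = d → ∀ᵐ ω ∂ν,
      mObs d (I.indicator 1) [rlist d] [] (fun x => pl l (Equiv.swap 0 1 x)) ω =
        mObs d (I.indicator 1) [rlist d] [] (pl (reidx σ l)) ω := by
  have hge : ∀ a : Fin d, 2 ≤ (π ⟨2 + a.val, by omega⟩).val := fun a => by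
    by_contra hlt
    have h2 : 2 + a.val < 2 := (hpin ⟨2 + a.val, by omega⟩).1 (by omega)
    omega
  set f : Fin d → Fin d := fun a => ⟨(π ⟨2 + a.val, by omega⟩).val - 2, by
    have := (π ⟨2 + a.val, by omega⟩).isLt
    have := hge a
    omega⟩
  have hf : Function.Injective f := by
    intro a b h
    have h1 := Fin.mk.inj h
    have ha := hge a
    have hb := hge b
    have h2 : π ⟨2 + a.val, by omega⟩ = π ⟨2 + b.val, by omega⟩ := Fin.ext (by omega)
    have h3 := Fin.mk.inj (π.injective h2)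
    exact Fin.ext (by omega)
  refine ⟨Equiv.ofBijective f (Finite.injective_iff_bijective.1 hf), fun l hl =>
    Eventually.of_forall fun ω => ?_⟩
  set u : Fin (2 + d) → ℕ := fun x => pl l (Equiv.swap 0 1 x.val)
  set w : Fin (2 + d) → ℕ := fun x =>
    pl (reidx (Equiv.ofBijective f (Finite.injective_iff_bijective.1 hf)) l) x.val
  have hw : w = u ∘ π := by
    funext x
    by_cases hx : x.val < 2
    · have h1 := (hpin x).2 hx
      have h2 : (π x).val ≠ x.val := fun e => hmove x hx (Fin.ext e)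
      have h3 : Equiv.swap 0 1 (π x).val = x.val := by
        rw [Equiv.swap_apply_def]; split_ifs <;> omega
      simp only [w, u, Function.comp_apply, h3]
      rcases Nat.lt_or_ge x.val 1 with h | h
      · rw [show x.val = 0 by omega]; rfl
      · rw [show x.val = 1 by omega]; rfl
    · obtain ⟨a, rfl⟩ : ∃ a : Fin d,
          (⟨2 + a.val, Nat.add_lt_add_left a.isLt 2⟩ : Fin (2 + d)) = x :=
        ⟨⟨x.val - 2, by omega⟩, Fin.ext (by show 2 + (x.val - 2) = x.val; omega)⟩
      have h1 := hge a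
      simp only [w, u, Function.comp_apply]
      rw [Equiv.swap_apply_of_ne_of_ne (by omega) (by omega), pl_two_add]
      show (reidx _ l).getD a.val 0 = pl l _
      rw [reidx, List.getD_eq_getElem _ _ (by simp), List.getElem_ofFn]
      rw [show (π ⟨2 + a.val, by omega⟩).val = 2 + ((π ⟨2 + a.val, by omega⟩).val - 2) by omega,
        pl_two_add]
      rfl
  simp only [mObs_rlist]
  show I.indicator 1 (tmat u ω) * rset (List.ofFn u) ω =
    I.indicator 1 (tmat w ω) * rset (List.ofFn w) ω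
  rw [hw, rset_list_perm (Equiv.Perm.ofFn_comp_perm π u) ω]
  congr 1
  have hiff : tmat (u ∘ π) ω ∈ I ↔ tmat u ω ∈ I := (hinv (tmat u ω)).symm
  by_cases hm : tmat u ω ∈ I
  · rw [Set.indicator_of_mem hm, Set.indicator_of_mem (hiff.2 hm)]
    rfl
  · rw [Set.indicator_of_notMem hm, Set.indicator_of_notMem (fun h => hm (hiff.1 h))]

lemma indicator_merge' {ν : Measure Arr} {ρ : ℝ} (ht : IsTreeArray ν ρ) {m : ℕ}
    {I : Set (Mat m)} (hI : ∀ T ∈ I, ∀ i j, i ≠ j → T i j < ρ) {u : Fin m → ℕ}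
    (hu : ¬ Function.Injective u) : ∀ᵐ ω ∂ν, tmat u ω ∉ I := by
  obtain ⟨i, j, he, hij⟩ := Function.not_injective_iff.1 hu
  filter_upwards [ht.rbar_diag (u i)] with ω hω hm
  have := hI _ hm i j hij
  simp only [tmat, ← he, hω, lt_self_iff_false] at this

/-- Products of indicators of overlap matrices: the kernel form of the inserted expectation. -/
theorem sum_kernel {ν : Measure Arr} {ρ : ℝ} (ht : IsTreeArray ν ρ) {d : ℕ}
    {κ : Kernel ℝ (Mat (2 + d))} [IsMarkovKernel κ]
    (hκ : ν.map (fun ω => (rbar 0 1 ω, tmat (idRep (2 + d)) ω)) = overlapLaw ν ⊗ₘ κ)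
    {I : Set (Mat (2 + d))} (hI : MeasurableSet I) (hIρ : ∀ T ∈ I, ∀ i j, i ≠ j → T i j < ρ)
    {W : Mat (2 + d) → Mat (2 + d) → ℝ} (hW : Measurable (Function.uncurry W))
    (hWb : ∀ S T, |W S T| ≤ 1) {g : ℝ → ℝ} (hg : Measurable g) (hgb : ∀ q, |g q| ≤ 1) :
    ∑ f : Fin d → Fin (2 + d + d), opc (2 + d) f *
        ∫ ω, (I ×ˢ I).indicator (fun z => g (rbar 0 1 ω) * W z.1 z.2)
          (tmat (idRep (2 + d)) ω,
            tmat (fun x : Fin (2 + d) => pl (List.ofFn fun i => (f i).val) x.val) ω) ∂ν =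
      fwgt d 2 * ∫ ω, g (rbar 0 1 ω) *
        (∫ S in I, ∫ T in I, W S T ∂κ (rbar 0 1 ω) ∂κ (rbar 0 1 ω)) ∂ν := by
  haveI := ht.prob
  haveI := isProb_overlapLaw ht.toIsGGArray
  set i0 : Fin (2 + d) := ⟨0, by omega⟩
  set i1 : Fin (2 + d) := ⟨1, by omega⟩
  set b : (Fin d → Fin (2 + d + d)) → Fin (2 + d) → ℕ :=
    fun f x => pl (List.ofFn fun i => (f i).val) x.val
  set Z : (Fin d → Fin (2 + d + d)) → Arr → Mat (2 + d) × Mat (2 + d) :=
    fun f ω => (tmat (idRep (2 + d)) ω, tmat (b f) ω)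
  have hZ : ∀ f, Measurable (Z f) := fun f => (measurable_tmat _).prodMk (measurable_tmat _)
  set M : Measure (Mat (2 + d) × Mat (2 + d)) := (overlapLaw ν ⊗ₘ (κ ×ₖ κ)).map Prod.snd
  set m : Option (Fin d → Fin (2 + d + d)) → Measure (Mat (2 + d) × Mat (2 + d)) := fun o =>
    (o.elim M fun f => ν.map (Z f)).restrict (I ×ˢ I)
  set co : Option (Fin d → Fin (2 + d + d)) → ℝ := fun o => o.elim (-fwgt d 2) fun f => opc (2 + d) f
  haveI : ∀ o, IsFiniteMeasure (m o) := fun o => by
    cases o <;> simp only [m, M, Option.elim] <;> infer_instance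
  have hII : MeasurableSet (I ×ˢ I) := hI.prod hI
  set V : Mat (2 + d) × Mat (2 + d) → ℝ := fun z => g (z.1 i0 i1) * W z.1 z.2
  have hVm : Measurable V := (hg.comp (by fun_prop)).mul hW
  have hVb : ∀ z, |V z| ≤ 1 := fun z => by
    rw [abs_mul]
    exact mul_le_one₀ (hgb _) (abs_nonneg _) (hWb _ _)
  have hzero := comb_eq_zero m co (Set.image2 (· ×ˢ ·) {A | MeasurableSet A} {A | MeasurableSet A})
    generateFrom_prod.symm isPiSystem_prod
    ⟨Set.univ, (MeasurableSet.univ : MeasurableSet (Set.univ : Set (Mat (2 + d)))), Set.univ,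
      (MeasurableSet.univ : MeasurableSet (Set.univ : Set (Mat (2 + d)))), Set.univ_prod_univ⟩
    ?_ hVm hVb
  swap
  · rintro _ ⟨A, hA0, B, hB0, rfl⟩
    have hA : MeasurableSet A := hA0
    have hB : MeasurableSet B := hB0
    have hA' : MeasurableSet (A ∩ I) := hA.inter hI
    have hB' : MeasurableSet (B ∩ I) := hB.inter hI
    have hBρ : ∀ T ∈ B ∩ I, ∀ i j, i ≠ j → T i j < ρ := fun T hT => hIρ T hT.2
    have hset : (A ×ˢ B) ∩ (I ×ˢ I) = (A ∩ I) ×ˢ (B ∩ I) := Set.prod_inter_prod
    have hFt : TestFn ν (2 + d) fun ω => (A ∩ I).indicator 1 (tmat (idRep (2 + d)) ω) :=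
      ⟨(measurable_one.indicator hA').comp (measurable_tmat _), fun ω ω' e => by
        show (A ∩ I).indicator 1 _ = (A ∩ I).indicator 1 _
        congr 1
        funext a a'
        exact rbar_data a.isLt a'.isLt e,
        1, zero_le_one, Eventually.of_forall fun ω => abs_indicator_one_le _ _⟩
    have hcore := lEI_kernel ht hκ hB' hBρ (n := 2 + d) (by omega) hFt
    rw [lEI_eq_sum (H := fun l ω => (B ∩ I).indicator 1
      (tmat (fun x : Fin (2 + d) => pl l x.val) ω)) fun l => integrable_of_bdd (C := 1)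
      (hFt.meas.mul ((measurable_one.indicator hB').comp (measurable_tmat _)))
      (ae_abs_mul_le zero_le_one (Eventually.of_forall fun ω => abs_indicator_one_le _ _)
        (Eventually.of_forall fun ω => abs_indicator_one_le _ _))] at hcore
    have hκB : Measurable fun q => (κ q).real (B ∩ I) := (κ.measurable_coe hB').ennreal_toReal
    have h2 : ∫ ω, (A ∩ I).indicator 1 (tmat (idRep (2 + d)) ω) *
          (κ (rbar 0 1 ω)).real (B ∩ I) ∂ν =
        ∫ ω, (κ (rbar 0 1 ω)).real (B ∩ I) * (κ (rbar 0 1 ω)).real (A ∩ I) ∂ν := by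
      rw [← integral_kernel_fun ht hκ hκB (B := 1)
        (fun q => by rw [abs_of_nonneg measureReal_nonneg]; exact measureReal_le_one) hA']
      exact integral_congr_ae (Eventually.of_forall fun ω => mul_comm _ _)
    rw [h2] at hcore
    have hnone : (m none).real (A ×ˢ B) =
        ∫ ω, (κ (rbar 0 1 ω)).real (B ∩ I) * (κ (rbar 0 1 ω)).real (A ∩ I) ∂ν := by
      rw [measureReal_restrict_apply (hA.prod hB), hset]
      show M.real _ = _
      rw [map_measureReal_apply measurable_snd (hA'.prod hB'),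
        ← integral_indicator_one (measurable_snd (hA'.prod hB')),
        Measure.integral_compProd (show Integrable ((Prod.snd ⁻¹' ((A ∩ I) ×ˢ (B ∩ I))).indicator
            (1 : ℝ × (Mat (2 + d) × Mat (2 + d)) → ℝ)) (overlapLaw ν ⊗ₘ (κ ×ₖ κ)) from
          (integrable_const (1 : ℝ)).indicator (measurable_snd (hA'.prod hB'))),
        ← integral_overlapLaw (f := fun q => (κ q).real (B ∩ I) * (κ q).real (A ∩ I))
          (hκB.mul (κ.measurable_coe hA').ennreal_toReal)]
      refine integral_congr_ae (Eventually.of_forall fun q => ?_)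
      show ∫ z, ((A ∩ I) ×ˢ (B ∩ I)).indicator 1 z ∂(κ ×ₖ κ) q = _
      rw [integral_indicator_one (hA'.prod hB'), Kernel.prod_apply, measureReal_prod_prod,
        mul_comm]
    have hsome : ∀ f, (m (some f)).real (A ×ˢ B) =
        ∫ ω, (A ∩ I).indicator 1 (tmat (idRep (2 + d)) ω) *
          (B ∩ I).indicator 1 (tmat (b f) ω) ∂ν := by
      intro f
      rw [measureReal_restrict_apply (hA.prod hB), hset]
      show (ν.map (Z f)).real _ = _
      rw [map_measureReal_apply (hZ f) (hA'.prod hB'),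
        ← integral_indicator_one ((hZ f) (hA'.prod hB'))]
      refine integral_congr_ae (Eventually.of_forall fun ω => ?_)
      by_cases h1 : tmat (idRep (2 + d)) ω ∈ A ∩ I <;> by_cases h2 : tmat (b f) ω ∈ B ∩ I <;>
        simp_all [Z]
    rw [Fintype.sum_option]
    simp only [co, Option.elim, hnone, hsome]
    linarith [hcore]
  have hnoneV : ∫ z, V z ∂m none = ∫ ω, g (rbar 0 1 ω) *
      (∫ S in I, ∫ T in I, W S T ∂κ (rbar 0 1 ω) ∂κ (rbar 0 1 ω)) ∂ν := by
    have hsm : Measurable fun z : ℝ × (Mat (2 + d) × Mat (2 + d)) =>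
        (I ×ˢ I).indicator V z.2 := (hVm.indicator hII).comp measurable_snd
    show ∫ z, V z ∂M.restrict (I ×ˢ I) = _
    rw [← integral_indicator hII, integral_map measurable_snd.aemeasurable
      (hVm.indicator hII).aestronglyMeasurable,
      Measure.integral_compProd (Integrable.mono' (integrable_const 1) hsm.aestronglyMeasurable
        (Eventually.of_forall fun z => by
          rw [Real.norm_eq_abs]
          by_cases hz : z.2 ∈ I ×ˢ I
          · rw [Set.indicator_of_mem hz]; exact hVb _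
          · rw [Set.indicator_of_notMem hz]; simp))]
    have hq : ∀ᵐ q ∂overlapLaw ν, ∀ᵐ S ∂κ q, S i0 i1 = q := by
      refine Measure.ae_ae_of_ae_compProd (p := fun z : ℝ × Mat (2 + d) => z.2 i0 i1 = z.1) ?_
      rw [← hκ, ae_map_iff ((measurable_rbar 0 1).prodMk (measurable_tmat _)).aemeasurable
        (measurableSet_eq_fun (by fun_prop) (by fun_prop))]
      exact Eventually.of_forall fun ω => rfl
    have hKm : Measurable fun q => ∫ S in I, ∫ T in I, W S T ∂κ q ∂κ q := by
      have e : ∀ q, ∫ S in I, ∫ T in I, W S T ∂κ q ∂κ q =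
          ∫ z, (I ×ˢ I).indicator (Function.uncurry W) z ∂(κ ×ₖ κ) q := by
        intro q
        rw [Kernel.prod_apply, integral_indicator hII, ← Measure.prod_restrict, integral_prod]
        · rfl
        · exact Integrable.mono' (integrable_const 1) hW.aestronglyMeasurable
            (Eventually.of_forall fun z => hWb _ _)
      simp only [e]
      exact ((hW.indicator hII).stronglyMeasurable.comp_measurable measurable_snd
        |>.integral_kernel_prod_right (κ := κ ×ₖ κ) (f := fun _ z =>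
          (I ×ˢ I).indicator (Function.uncurry W) z)).measurable
    rw [← integral_overlapLaw (f := fun q => g q * ∫ S in I, ∫ T in I, W S T ∂κ q ∂κ q)
      (hg.mul hKm)]
    refine integral_congr_ae ?_
    filter_upwards [hq] with q hq
    show ∫ z, (I ×ˢ I).indicator V z ∂(κ ×ₖ κ) q = _
    rw [Kernel.prod_apply, integral_indicator hII, ← Measure.prod_restrict, integral_prod]
    · rw [← integral_const_mul]
      refine integral_congr_ae ?_
      filter_upwards [ae_restrict_of_ae hq] with S hS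
      simp only [V, hS]
      rw [integral_const_mul]
    · exact Integrable.mono' (integrable_const 1) hVm.aestronglyMeasurable
        (Eventually.of_forall fun z => hVb z)
  rw [Fintype.sum_option] at hzero
  simp only [co, Option.elim, hnoneV] at hzero
  have hsomeV : ∀ f, ∫ z, V z ∂m (some f) = ∫ ω, (I ×ˢ I).indicator
      (fun z => g (rbar 0 1 ω) * W z.1 z.2) (Z f ω) ∂ν := by
    intro f
    show ∫ z, V z ∂(ν.map (Z f)).restrict (I ×ˢ I) = _
    rw [← integral_indicator hII,
      integral_map (hZ f).aemeasurable (hVm.indicator hII).aestronglyMeasurable]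
    refine integral_congr_ae (Eventually.of_forall fun ω => ?_)
    by_cases hz : Z f ω ∈ I ×ˢ I
    · simp only [Set.indicator_of_mem hz]; rfl
    · simp only [Set.indicator_of_notMem hz]
  simp only [hsomeV] at hzero
  linarith [hzero]

/-- The field `var_id`. -/
theorem var_id {ν : Measure Arr} {ρ : ℝ} (hg : IsGadgetArray ν) (ht : IsTreeArray ν ρ) (d : ℕ) :
    ∃ C : ℝ, ∀ (I : Set (Mat (2 + d))) (π : Equiv.Perm (Fin (2 + d))),
    MeasurableSet I → (∀ T ∈ I, ∀ i j, i ≠ j → T i j < ρ) →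
    (∀ i, (π i).val < 2 ↔ i.val < 2) → (∀ i, i.val < 2 → π i ≠ i) →
    (∀ T, T ∈ I ↔ (fun a b => T (π a) (π b)) ∈ I) →
    ∀ κ : Kernel ℝ (Mat (2 + d)), IsMarkovKernel κ →
      ν.map (fun ω => (rbar 0 1 ω, tmat (idRep (2 + d)) ω)) = (overlapLaw ν) ⊗ₘ κ →
    ∀ c : ℝ → ℝ, Measurable c → (∀ q, |c q| ≤ 1) →
      (∀ g : ℝ → ℝ, Measurable g → (∀ q, |g q| ≤ 1) →
        ∫ ω, g (rbar 0 1 ω) * (I.indicator 1 (tmat (idRep (2 + d)) ω) *
            rset (List.ofFn (idRep (2 + d))) ω) ∂ν =
          ∫ ω, g (rbar 0 1 ω) * c (rbar 0 1 ω) ∂ν) →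
    ∀ (W : Mat (2 + d) → Mat (2 + d) → ℝ) (ε : ℝ), Measurable (Function.uncurry W) →
      (∀ S T, |W S T| ≤ 1) →
      (∀ u u' : Fin (2 + d) → ℕ, Function.Injective u → Function.Injective u' →
        (∀ i, u i < 2 + 2 * d ∧ u' i < 2 + 2 * d) →
        (∀ i, i.val < 2 → u i = i.val ∧ u' i = i.val) →
        ∀ E : Set (Mat (2 + 2 * d)), MeasurableSet E →
          |∫ ω in {ω | tmat (idRep (2 + 2 * d)) ω ∈ E ∧ tmat u ω ∈ I ∧ tmat u' ω ∈ I},
              (rset (List.ofFn u) ω * rset (List.ofFn u') ω - W (tmat u ω) (tmat u' ω)) ∂ν| ≤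
            ε * ν.real {ω | tmat (idRep (2 + 2 * d)) ω ∈ E}) →
      ∀ g : ℝ → ℝ, Measurable g → (∀ q, |g q| ≤ 1) →
        |∫ ω, g (rbar 0 1 ω) * c (rbar 0 1 ω) ^ 2 ∂ν -
          ∫ ω, g (rbar 0 1 ω) *
            (∫ S in I, ∫ T in I, W S T ∂κ (rbar 0 1 ω) ∂κ (rbar 0 1 ω)) ∂ν| ≤ C * ε := by
  haveI := ht.prob
  refine ⟨(∑ f : Fin d → Fin (2 + d + d), |opc (2 + d) f|) / |fwgt d 2|, ?_⟩
  intro I π hI hIρ hpin hmove hinv κ hκm hκ c hc hcb hcI W ε hW hWb hWε g hgm hgb
  have hA : fwgt d 2 ≠ 0 := fwgt_ne_zero d 2 (by norm_num)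
  set X := mObs d (I.indicator (1 : Mat (2 + d) → ℝ)) [rlist d] []
  have hXobs := isObs_ind ht.toIsGGArray (d := d) hI
  have hXid : ∀ ω, X id ω =
      I.indicator 1 (tmat (idRep (2 + d)) ω) * rset (List.ofFn (idRep (2 + d))) ω :=
    fun ω => mObs_rlist d _ id ω
  have hXb : ∀ u, ∀ᵐ ω ∂ν, |X u ω| ≤ 1 := fun u => by
    filter_upwards [abs_pval_le ht.toIsGGArray [rlist d] []] with ω h2
    rw [show X u ω = _ * _ from rfl, abs_mul]
    exact mul_le_one₀ (abs_indicator_one_le I _) (abs_nonneg _) (h2 u)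
  have hn : 2 ≤ 2 + d := by omega
  set F2 : Arr → ℝ := fun ω => g (rbar 0 1 ω) * X id ω
  have hF2 : TestFn ν (2 + d) F2 := (testFn_rbar hgm zero_le_one hgb hn).mul
    ⟨hXobs.meas id, fun ω ω' e => hXobs.data _ id (fun i hi => hi) ω ω' e, 1, zero_le_one, hXb id⟩
  have hstep1 : ∫ ω, F2 ω * c (rbar 0 1 ω) ∂ν =
      ∫ ω, g (rbar 0 1 ω) * c (rbar 0 1 ω) ^ 2 ∂ν := by
    have h := hcI (fun q => g q * c q) (hgm.mul hc) fun q => by
      rw [abs_mul]; exact mul_le_one₀ (hgb q) (abs_nonneg _) (hcb q)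
    calc ∫ ω, F2 ω * c (rbar 0 1 ω) ∂ν
        = ∫ ω, g (rbar 0 1 ω) * c (rbar 0 1 ω) * (I.indicator 1 (tmat (idRep (2 + d)) ω) *
            rset (List.ofFn (idRep (2 + d))) ω) ∂ν :=
          integral_congr_ae (Eventually.of_forall fun ω => by simp only [F2, hXid]; ring)
      _ = ∫ ω, g (rbar 0 1 ω) * c (rbar 0 1 ω) * c (rbar 0 1 ω) ∂ν := h
      _ = _ := integral_congr_ae (Eventually.of_forall fun ω => by ring)
  have hEI := EI_ind hg ht hI hIρ hc hcb hcI hn hF2
  rw [hstep1, EI_eq_half hF2 hXobs] at hEI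
  obtain ⟨σ, hσ⟩ := exists_relabel (ν := ν) hpin hmove hinv
  have hswap : sEI ν (fun x => Equiv.swap 0 1 x) (2 + d) F2 d X = sEI ν id (2 + d) F2 d X :=
    (lEI_congr fun l hl _ => hσ l hl).trans
      (lEI_perm ht.toIsGGArray σ (2 + d) F2 (fun l => X (pl l)) hF2 (hXobs.listObs hn))
  rw [hswap] at hEI
  have hint : ∀ l : List ℕ, Integrable (fun ω => F2 ω * X (fun x => pl l (id x)) ω) ν := fun l =>
    integrable_of_bdd (hF2.meas.mul (hXobs.meas _))
      (ae_abs_mul_le hF2.bdd.choose_spec.1 hF2.bdd.choose_spec.2 (hXb _))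
  have hsum : sEI ν id (2 + d) F2 d X = ∑ f : Fin d → Fin (2 + d + d),
      opc (2 + d) f * ∫ ω, F2 ω * X (pl (List.ofFn fun i => (f i).val)) ω ∂ν :=
    lEI_eq_sum hint
  have hker := sum_kernel ht hκ hI hIρ hW hWb hgm hgb
  have hε0 : 0 ≤ ε := by
    have h := (abs_nonneg _).trans (hWε Fin.val Fin.val Fin.val_injective Fin.val_injective
      (fun i => by constructor <;> omega) (fun i _ => ⟨rfl, rfl⟩) Set.univ MeasurableSet.univ)
    simpa using h
  set Z2 : (Fin d → Fin (2 + d + d)) → Arr → Mat (2 + d) × Mat (2 + d) := fun f ω =>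
    (tmat (idRep (2 + d)) ω,
      tmat (fun x : Fin (2 + d) => pl (List.ofFn fun i => (f i).val) x.val) ω)
  have hdiff : ∀ f : Fin d → Fin (2 + d + d),
      |∫ ω, F2 ω * X (pl (List.ofFn fun i => (f i).val)) ω ∂ν -
        ∫ ω, (I ×ˢ I).indicator (fun z => g (rbar 0 1 ω) * W z.1 z.2) (Z2 f ω) ∂ν| ≤ ε := by
    intro f
    set u : Fin (2 + d) → ℕ := idRep (2 + d)
    set u' : Fin (2 + d) → ℕ := fun x => pl (List.ofFn fun i => (f i).val) x.val
    set D : Arr → ℝ := {ω | tmat u ω ∈ I ∧ tmat u' ω ∈ I}.indicator fun ω =>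
      rset (List.ofFn u) ω * rset (List.ofFn u') ω - W (tmat u ω) (tmat u' ω)
    have hSm : MeasurableSet {ω | tmat u ω ∈ I ∧ tmat u' ω ∈ I} :=
      ((measurable_tmat u) hI).inter ((measurable_tmat u') hI)
    have hDm : Measurable D := (((measurable_rset _).mul (measurable_rset _)).sub
      (hW.comp ((measurable_tmat u).prodMk (measurable_tmat u')))).indicator hSm
    have hDb : ∀ ω, |D ω| ≤ 2 := by
      intro ω
      by_cases hω : ω ∈ {ω | tmat u ω ∈ I ∧ tmat u' ω ∈ I}
      · simp only [D, Set.indicator_of_mem hω]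
        refine (abs_sub _ _).trans ?_
        rw [abs_mul]
        linarith [mul_le_one₀ (abs_rset_le (List.ofFn u) ω) (abs_nonneg _)
          (abs_rset_le (List.ofFn u') ω), hWb (tmat u ω) (tmat u' ω)]
      · simp [D, Set.indicator_of_notMem hω]
    have hDi : Integrable D ν := integrable_of_bdd hDm (Eventually.of_forall hDb)
    have hi1 : Integrable (fun ω =>
        (I ×ˢ I).indicator (fun z => g (rbar 0 1 ω) * W z.1 z.2) (Z2 f ω)) ν := by
      refine integrable_of_bdd (C := 1) ?_ (Eventually.of_forall fun ω => ?_)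
      · have e : (fun ω => (I ×ˢ I).indicator (fun z => g (rbar 0 1 ω) * W z.1 z.2) (Z2 f ω)) =
            fun ω => g (rbar 0 1 ω) * (I ×ˢ I).indicator (fun z => W z.1 z.2) (Z2 f ω) := by
          funext ω
          by_cases hz : Z2 f ω ∈ I ×ˢ I
          · simp only [Set.indicator_of_mem hz]
          · simp only [Set.indicator_of_notMem hz, mul_zero]
        rw [e]
        exact (hgm.comp (measurable_rbar 0 1)).mul ((hW.indicator (hI.prod hI)).comp
          ((measurable_tmat _).prodMk (measurable_tmat _)))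
      · by_cases hz : Z2 f ω ∈ I ×ˢ I
        · rw [Set.indicator_of_mem hz, abs_mul]
          exact mul_le_one₀ (hgb _) (abs_nonneg _) (hWb _ _)
        · rw [Set.indicator_of_notMem hz, abs_zero]; exact zero_le_one
    have hpt : ∀ ω, F2 ω * X (pl (List.ofFn fun i => (f i).val)) ω -
        (I ×ˢ I).indicator (fun z => g (rbar 0 1 ω) * W z.1 z.2) (Z2 f ω) =
          g (rbar 0 1 ω) * D ω := by
      intro ω
      have e1 : X (pl (List.ofFn fun i => (f i).val)) ω =
          I.indicator 1 (tmat u' ω) * rset (List.ofFn u') ω := mObs_rlist d _ _ ω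
      simp only [F2, hXid, e1]
      by_cases h1 : tmat u ω ∈ I <;> by_cases h2 : tmat u' ω ∈ I
      · have hz : Z2 f ω ∈ I ×ˢ I := ⟨h1, h2⟩
        have hs : ω ∈ {ω | tmat u ω ∈ I ∧ tmat u' ω ∈ I} := ⟨h1, h2⟩
        simp only [D, Set.indicator_of_mem hz, Set.indicator_of_mem hs, Set.indicator_of_mem h1,
          Set.indicator_of_mem h2, Pi.one_apply]
        show g _ * (1 * rset (List.ofFn u) ω) * (1 * rset (List.ofFn u') ω) -
          g _ * W (tmat u ω) (tmat u' ω) = _
        ring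
      all_goals
        have hz : Z2 f ω ∉ I ×ˢ I := fun h => by
          first
          | exact h2 h.2
          | exact h1 h.1
        have hs : ω ∉ {ω | tmat u ω ∈ I ∧ tmat u' ω ∈ I} := fun h => by
          first
          | exact h2 h.2
          | exact h1 h.1
        rw [Set.indicator_of_notMem hz, show D ω = 0 from Set.indicator_of_notMem hs _]
        simp [h1, h2]
    have hi2 : Integrable (fun ω => F2 ω * X (pl (List.ofFn fun i => (f i).val)) ω) ν := hint _
    rw [← integral_sub hi2 hi1, integral_congr_ae (Eventually.of_forall hpt)]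
    by_cases hu' : Function.Injective u'
    · refine abs_integral_le_of_sets (measurable_tmat (idRep (2 + 2 * d))) hDi ?_
        (G := fun T => g (T ⟨0, by omega⟩ ⟨1, by omega⟩)) (hgm.comp (by fun_prop))
        (fun T => hgb _)
      intro E hE
      rw [setIntegral_indicator hSm]
      refine hWε u u' Fin.val_injective hu' (fun i => ⟨?_, ?_⟩) (fun i hi => ⟨rfl, ?_⟩) E hE
      · show i.val < 2 + 2 * d
        omega
      · refine lt_of_lt_of_le (pl_lt (N := 2 + d + d) hn (by omega) (fun y hy => ?_) _) (by omega)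
        rw [List.mem_ofFn] at hy
        obtain ⟨j, rfl⟩ := hy
        exact (f j).isLt
      · show pl _ i.val = i.val
        rcases Nat.lt_or_ge i.val 1 with h | h
        · rw [show i.val = 0 by omega]; rfl
        · rw [show i.val = 1 by omega]; rfl
    · rw [show ∫ ω, g (rbar 0 1 ω) * D ω ∂ν = 0 from integral_eq_zero_of_ae ?_, abs_zero]
      · exact hε0
      filter_upwards [indicator_merge' ht hIρ hu'] with ω hω
      have hs : ω ∉ {ω | tmat u ω ∈ I ∧ tmat u' ω ∈ I} := fun h => hω h.2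
      simp [D, Set.indicator_of_notMem hs]
  rw [div_mul_eq_mul_div, le_div_iff₀ (abs_pos.2 hA), ← abs_mul, sub_mul,
    mul_comm _ (fwgt d 2), mul_comm _ (fwgt d 2), ← hker, ← hEI]
  rw [show 1 / 2 * (sEI ν id (2 + d) F2 d X + sEI ν id (2 + d) F2 d X) =
    sEI ν id (2 + d) F2 d X by ring, hsum, ← Finset.sum_sub_distrib, Finset.sum_mul]
  refine (Finset.abs_sum_le_sum_abs _ _).trans (Finset.sum_le_sum fun f _ => ?_)
  rw [← mul_sub, abs_mul]
  exact mul_le_mul_of_nonneg_left (hdiff f) (abs_nonneg _)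

end Vale.Agent.P168.Core
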